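import Mathlib

/-!
Host graphs built from a single vertex by lexicographic products with complete and
empty graphs, and by categorical products.
-/

namespace Vale.Agent.Lib.P050

/-- `selfJoin k G` is the lexicographic product `K_k[G]`: `k` disjoint copies of `G`,
with every two vertices in different copies adjacent. -/
def selfJoin (k : ℕ) {W : Type} (G : SimpleGraph W) : SimpleGraph (Fin k × W) where
  Adj a b := a.1 ≠ b.1 ∨ (a.1 = b.1 ∧ G.Adj a.2 b.2)
  symm := ⟨fun _ _ h => by
    rcases h with h | ⟨h1, h2⟩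
    · exact Or.inl (Ne.symm h)
    · exact Or.inr ⟨h1.symm, h2.symm⟩⟩
  loopless := ⟨fun _ h => by
    rcases h with h | ⟨_, h2⟩
    · exact h rfl
    · exact G.loopless.irrefl _ h2⟩

/-- `copies k G` is the disjoint union of `k` copies of `G`. -/
def copies (k : ℕ) {W : Type} (G : SimpleGraph W) : SimpleGraph (Fin k × W) where
  Adj a b := a.1 = b.1 ∧ G.Adj a.2 b.2
  symm := ⟨fun _ _ h => ⟨h.1.symm, h.2.symm⟩⟩
  loopless := ⟨fun _ h => G.loopless.irrefl _ h.2⟩

/-- the categorical (tensor) product of two graphs -/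
def tensor {W₁ W₂ : Type} (G₁ : SimpleGraph W₁) (G₂ : SimpleGraph W₂) :
    SimpleGraph (W₁ × W₂) where
  Adj a b := G₁.Adj a.1 b.1 ∧ G₂.Adj a.2 b.2
  symm := ⟨fun _ _ h => ⟨h.1.symm, h.2.symm⟩⟩
  loopless := ⟨fun _ h => G₁.loopless.irrefl _ h.1⟩

/-- The smallest isomorphism-closed class of graphs containing the one-vertex graph and
closed under `selfJoin k` and `copies k` (for `k ≥ 1`) and under `tensor`. -/
inductive Buildable : {W : Type} → SimpleGraph W → Prop
  | point : Buildable (⊥ : SimpleGraph Unit)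
  | join {W : Type} (k : ℕ) (hk : 1 ≤ k) (G : SimpleGraph W) :
      Buildable G → Buildable (selfJoin k G)
  | copies {W : Type} (k : ℕ) (hk : 1 ≤ k) (G : SimpleGraph W) :
      Buildable G → Buildable (copies k G)
  | tensor {W₁ W₂ : Type} (G₁ : SimpleGraph W₁) (G₂ : SimpleGraph W₂) :
      Buildable G₁ → Buildable G₂ → Buildable (tensor G₁ G₂)
  | iso {W W' : Type} (G : SimpleGraph W) (G' : SimpleGraph W') :
      Buildable G → Nonempty (G ≃g G') → Buildable G'

end Vale.Agent.Lib.P050
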