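import Vale.Agent.Lib.P050.GrDefs

/-!
Basic facts on the cells of the grid: measurability, volume, diameter, and the decomposition
of an integral over the unit square into the integrals over the products of cells.
-/

open MeasureTheory Set

namespace Vale.Agent.Lib.P050.Gr

theorem measurable_idx (k : ℕ) : Measurable (idx k) := by
  have h1 : Measurable (fun x : ℝ => ⌊((k:ℝ) + 1) * x⌋₊) :=
    Nat.measurable_floor.comp (measurable_const.mul measurable_id)
  have h2 : Measurable (fun n : ℕ => (⟨min n k, Nat.lt_succ_of_le (min_le_right _ _)⟩ : Fin (k + 1))) :=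
    Measurable.of_discrete
  exact h2.comp h1

theorem measurableSet_cell (k : ℕ) (i : Fin (k + 1)) : MeasurableSet (cell k i) :=
  measurableSet_Icc.inter (measurable_idx k (measurableSet_singleton i))

theorem cell_subset (k : ℕ) (i : Fin (k + 1)) : cell k i ⊆ Icc (0:ℝ) 1 := inter_subset_left

theorem mem_cell_idx {k : ℕ} {x : ℝ} (hx : x ∈ Icc (0:ℝ) 1) : x ∈ cell k (idx k x) :=
  ⟨hx, rfl⟩

theorem idx_of_mem_cell {k : ℕ} {i : Fin (k + 1)} {x : ℝ} (hx : x ∈ cell k i) : idx k x = i :=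
  hx.2

theorem cell_disjoint (k : ℕ) {i j : Fin (k + 1)} (h : i ≠ j) : Disjoint (cell k i) (cell k j) := by
  rw [Set.disjoint_left]
  intro x hx hx'
  exact h ((idx_of_mem_cell hx).symm.trans (idx_of_mem_cell hx'))

theorem iUnion_cell (k : ℕ) : ⋃ i, cell k i = Icc (0:ℝ) 1 := by
  ext x
  simp only [mem_iUnion]
  constructor
  · rintro ⟨i, hi⟩
    exact cell_subset k i hi
  · intro hx
    exact ⟨idx k x, mem_cell_idx hx⟩

theorem Ico_subset_cell (k : ℕ) (i : Fin (k + 1)) :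
    Ico ((i:ℝ) / ((k:ℝ) + 1)) (((i:ℝ) + 1) / ((k:ℝ) + 1)) ⊆ cell k i := by
  intro x hx
  have hk : (0:ℝ) < (k:ℝ) + 1 := by positivity
  have hi : (i:ℕ) ≤ k := Nat.lt_succ_iff.mp i.2
  have hiR : (i:ℝ) ≤ (k:ℝ) := by exact_mod_cast hi
  have h1 : (i:ℝ) ≤ ((k:ℝ) + 1) * x := by
    have := hx.1
    rw [div_le_iff₀ hk] at this
    linarith
  have h2 : ((k:ℝ) + 1) * x < (i:ℝ) + 1 := by
    have := hx.2
    rw [lt_div_iff₀ hk] at this
    linarith
  have hx0 : 0 ≤ x := by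
    have : (0:ℝ) ≤ (i:ℝ) / ((k:ℝ) + 1) := by positivity
    linarith [hx.1]
  have hx1 : x ≤ 1 := by
    by_contra hcon
    push Not at hcon
    nlinarith
  refine ⟨⟨hx0, hx1⟩, ?_⟩
  have hfl : ⌊((k:ℝ) + 1) * x⌋₊ = (i:ℕ) := by
    rw [Nat.floor_eq_iff (by positivity)]
    exact ⟨h1, h2⟩
  show idx k x = i
  apply Fin.ext
  show min ⌊((k:ℝ) + 1) * x⌋₊ k = (i:ℕ)
  rw [hfl]
  exact min_eq_left hi

theorem cell_subset_Icc (k : ℕ) (i : Fin (k + 1)) :
    cell k i ⊆ Icc ((i:ℝ) / ((k:ℝ) + 1)) (((i:ℝ) + 1) / ((k:ℝ) + 1)) := by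
  intro x hx
  have hk : (0:ℝ) < (k:ℝ) + 1 := by positivity
  have hi : (i:ℕ) ≤ k := Nat.lt_succ_iff.mp i.2
  obtain ⟨⟨hx0, hx1⟩, hidx⟩ := hx
  have hmin : min ⌊((k:ℝ) + 1) * x⌋₊ k = (i:ℕ) := congrArg Fin.val hidx
  have hpos : (0:ℝ) ≤ ((k:ℝ) + 1) * x := by positivity
  constructor
  · rw [div_le_iff₀ hk]
    have h1 : (i:ℕ) ≤ ⌊((k:ℝ) + 1) * x⌋₊ := by
      rw [← hmin]
      exact min_le_left _ _
    have h2 : ((⌊((k:ℝ) + 1) * x⌋₊ : ℕ) : ℝ) ≤ ((k:ℝ) + 1) * x := Nat.floor_le hpos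
    have h3 : ((i:ℕ):ℝ) ≤ ((⌊((k:ℝ) + 1) * x⌋₊ : ℕ) : ℝ) := by exact_mod_cast h1
    linarith
  · rw [le_div_iff₀ hk]
    rcases Nat.lt_or_ge (i:ℕ) k with hlt | hge
    · have hfl : ⌊((k:ℝ) + 1) * x⌋₊ = (i:ℕ) := by
        rcases Nat.lt_or_ge ⌊((k:ℝ) + 1) * x⌋₊ k with h | h
        · rw [min_eq_left h.le] at hmin
          exact hmin
        · rw [min_eq_right h] at hmin
          omega
      have h2 : ((k:ℝ) + 1) * x < ((⌊((k:ℝ) + 1) * x⌋₊ : ℕ) : ℝ) + 1 := Nat.lt_floor_add_one _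
      rw [hfl] at h2
      linarith
    · have hik : (i:ℕ) = k := le_antisymm hi hge
      have : ((i:ℕ):ℝ) = (k:ℝ) := by exact_mod_cast hik
      rw [this]
      nlinarith

theorem volume_cell (k : ℕ) (i : Fin (k + 1)) :
    volume (cell k i) = ENNReal.ofReal (1 / ((k:ℝ) + 1)) := by
  have hk : (0:ℝ) < (k:ℝ) + 1 := by positivity
  have hlen : ((i:ℝ) + 1) / ((k:ℝ) + 1) - (i:ℝ) / ((k:ℝ) + 1) = 1 / ((k:ℝ) + 1) := by
    field_simp
    ring
  apply le_antisymm
  · calc volume (cell k i) ≤ volume (Icc ((i:ℝ) / ((k:ℝ) + 1)) (((i:ℝ) + 1) / ((k:ℝ) + 1))) :=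
          measure_mono (cell_subset_Icc k i)
      _ = ENNReal.ofReal (1 / ((k:ℝ) + 1)) := by rw [Real.volume_Icc, hlen]
  · calc ENNReal.ofReal (1 / ((k:ℝ) + 1))
          = volume (Ico ((i:ℝ) / ((k:ℝ) + 1)) (((i:ℝ) + 1) / ((k:ℝ) + 1))) := by
            rw [Real.volume_Ico, hlen]
      _ ≤ volume (cell k i) := measure_mono (Ico_subset_cell k i)

theorem volume_real_cell (k : ℕ) (i : Fin (k + 1)) :
    volume.real (cell k i) = 1 / ((k:ℝ) + 1) := by
  rw [Measure.real, volume_cell, ENNReal.toReal_ofReal (by positivity)]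

theorem abs_sub_le_of_mem_cell {k : ℕ} {i : Fin (k + 1)} {x y : ℝ} (hx : x ∈ cell k i)
    (hy : y ∈ cell k i) : |x - y| ≤ 1 / ((k:ℝ) + 1) := by
  have hk : (0:ℝ) < (k:ℝ) + 1 := by positivity
  have hlen : ((i:ℝ) + 1) / ((k:ℝ) + 1) - (i:ℝ) / ((k:ℝ) + 1) = 1 / ((k:ℝ) + 1) := by
    field_simp
    ring
  have h1 := cell_subset_Icc k i hx
  have h2 := cell_subset_Icc k i hy
  rw [abs_le]
  constructor <;> linarith [h1.1, h1.2, h2.1, h2.2]

theorem measurableSet_cell_prod (k : ℕ) (i j : Fin (k + 1)) :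
    MeasurableSet (cell k i ×ˢ cell k j) :=
  (measurableSet_cell k i).prod (measurableSet_cell k j)

theorem cell_prod_subset_sq (k : ℕ) (i j : Fin (k + 1)) : cell k i ×ˢ cell k j ⊆ sq :=
  Set.prod_mono (cell_subset k i) (cell_subset k j)

theorem volume_cell_prod (k : ℕ) (i j : Fin (k + 1)) :
    volume (cell k i ×ˢ cell k j) = ENNReal.ofReal (1 / ((k:ℝ) + 1) ^ 2) := by
  rw [Measure.volume_eq_prod, Measure.prod_prod, volume_cell, volume_cell,
    ← ENNReal.ofReal_mul (by positivity)]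
  congr 1
  field_simp

theorem volume_real_cell_prod (k : ℕ) (i j : Fin (k + 1)) :
    volume.real (cell k i ×ˢ cell k j) = 1 / ((k:ℝ) + 1) ^ 2 := by
  rw [Measure.real, volume_cell_prod, ENNReal.toReal_ofReal (by positivity)]

theorem measurableSet_sq : MeasurableSet sq := measurableSet_Icc.prod measurableSet_Icc

theorem volume_sq : volume sq = 1 := by
  unfold sq
  rw [Measure.volume_eq_prod, Measure.prod_prod, Real.volume_Icc]
  simp

theorem volume_real_sq : volume.real sq = 1 := by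
  rw [Measure.real, volume_sq]
  simp

theorem sq_eq_iUnion (k : ℕ) :
    sq = ⋃ ij : Fin (k + 1) × Fin (k + 1), cell k ij.1 ×ˢ cell k ij.2 := by
  ext p
  simp only [mem_iUnion, mem_prod, Prod.exists]
  constructor
  · intro hp
    exact ⟨idx k p.1, idx k p.2, mem_cell_idx hp.1, mem_cell_idx hp.2⟩
  · rintro ⟨i, j, h1, h2⟩
    exact ⟨cell_subset k i h1, cell_subset k j h2⟩

/-- an integral over the unit square is the sum of the integrals over the products of cells -/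
theorem integral_sq_eq_sum (k : ℕ) (f : ℝ × ℝ → ℝ) (hf : IntegrableOn f sq) :
    ∫ p in sq, f p = ∑ i : Fin (k + 1), ∑ j : Fin (k + 1), ∫ p in cell k i ×ˢ cell k j, f p := by
  have h := integral_iUnion_fintype (μ := (volume : Measure (ℝ × ℝ))) (f := f)
    (s := fun ij : Fin (k + 1) × Fin (k + 1) => cell k ij.1 ×ˢ cell k ij.2)
    (fun ij => measurableSet_cell_prod k ij.1 ij.2) ?_ ?_
  · rw [sq_eq_iUnion k, h, Fintype.sum_prod_type]
  · intro a b hab
    rw [Function.onFun, Set.disjoint_left]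
    rintro p ⟨h1, h2⟩ ⟨h3, h4⟩
    apply hab
    exact Prod.ext ((idx_of_mem_cell h1).symm.trans (idx_of_mem_cell h3))
      ((idx_of_mem_cell h2).symm.trans (idx_of_mem_cell h4))
  · intro ij
    exact hf.mono_set (cell_prod_subset_sq k ij.1 ij.2)

theorem stepK_eq_of_mem {k : ℕ} (W : ℝ → ℝ → ℝ) {i j : Fin (k + 1)} {p : ℝ × ℝ}
    (hp : p ∈ cell k i ×ˢ cell k j) : stepK k W p.1 p.2 = blk k W i j := by
  unfold stepK
  rw [idx_of_mem_cell hp.1, idx_of_mem_cell hp.2]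

theorem measurable_stepK (k : ℕ) (W : ℝ → ℝ → ℝ) : Measurable (Function.uncurry (stepK k W)) := by
  have h : Measurable (fun p : ℝ × ℝ => (idx k p.1, idx k p.2)) :=
    ((measurable_idx k).comp measurable_fst).prodMk ((measurable_idx k).comp measurable_snd)
  have h2 : Measurable (fun ij : Fin (k + 1) × Fin (k + 1) => blk k W ij.1 ij.2) :=
    Measurable.of_discrete
  have h3 : Function.uncurry (stepK k W)
      = (fun ij : Fin (k + 1) × Fin (k + 1) => blk k W ij.1 ij.2)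
        ∘ (fun p : ℝ × ℝ => (idx k p.1, idx k p.2)) := by
    funext p
    rfl
  rw [h3]
  exact h2.comp h

end Vale.Agent.Lib.P050.Gr
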