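import Vale.Agent.Lib.P050.GrCell
open MeasureTheory Set
namespace Vale.Agent.Lib.P050.Gr

theorem stepK_close_of_continuous (g : ℝ → ℝ → ℝ) (hg : Continuous (Function.uncurry g))
    {δ : ℝ} (hδ : 0 < δ) :
    ∃ K : ℕ, ∀ k, K ≤ k → ∀ x ∈ Icc (0:ℝ) 1, ∀ y ∈ Icc (0:ℝ) 1,
      |g x y - stepK k g x y| ≤ δ := by
  have hcomp : IsCompact sq := isCompact_Icc.prod isCompact_Icc
  have huc : UniformContinuousOn (Function.uncurry g) sq :=
    hcomp.uniformContinuousOn_of_continuous hg.continuousOn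
  rw [Metric.uniformContinuousOn_iff] at huc
  obtain ⟨η, hη, hηd⟩ := huc δ hδ
  obtain ⟨K, hK⟩ := exists_nat_one_div_lt hη
  refine ⟨K, fun k hk x hx y hy => ?_⟩
  have hkpos : (0:ℝ) < (k:ℝ) + 1 := by positivity
  have hk1 : 1 / ((k:ℝ) + 1) < η := by
    have h1 : 1 / ((k:ℝ) + 1) ≤ 1 / ((K:ℝ) + 1) := by
      apply one_div_le_one_div_of_le (by positivity)
      have h2 : (K:ℝ) ≤ k := by exact_mod_cast hk
      linarith
    linarith
  have hxi : x ∈ cell k (idx k x) := mem_cell_idx hx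
  have hyj : y ∈ cell k (idx k y) := mem_cell_idx hy
  have hxy : (x, y) ∈ sq := ⟨hx, hy⟩
  have hbound : ∀ q ∈ cell k (idx k x) ×ˢ cell k (idx k y), ‖g x y - g q.1 q.2‖ ≤ δ := by
    intro q hq
    have hqsq : q ∈ sq := cell_prod_subset_sq k _ _ hq
    have hd : dist ((x, y) : ℝ × ℝ) q < η := by
      rw [Prod.dist_eq, Real.dist_eq, Real.dist_eq]
      exact lt_of_le_of_lt (max_le (abs_sub_le_of_mem_cell hxi hq.1)
        (abs_sub_le_of_mem_cell hyj hq.2)) hk1
    have h3 := hηd (x, y) hxy q hqsq hd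
    rw [Real.dist_eq] at h3
    rw [Real.norm_eq_abs]
    exact h3.le
  have hint : IntegrableOn (fun q : ℝ × ℝ => g q.1 q.2)
      (cell k (idx k x) ×ˢ cell k (idx k y)) :=
    (hg.continuousOn.integrableOn_compact hcomp).mono_set (cell_prod_subset_sq k _ _)
  have hfin : volume (cell k (idx k x) ×ˢ cell k (idx k y)) < ⊤ := by
    rw [volume_cell_prod]
    exact ENNReal.ofReal_lt_top
  have hstep : stepK k g x y
      = ((k:ℝ) + 1) ^ 2 * ∫ q in cell k (idx k x) ×ˢ cell k (idx k y), g q.1 q.2 := rfl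
  have hconst : g x y
      = ((k:ℝ) + 1) ^ 2 * ∫ _q in cell k (idx k x) ×ˢ cell k (idx k y), g x y := by
    rw [setIntegral_const, volume_real_cell_prod, smul_eq_mul]
    field_simp
  have hdiff : g x y - stepK k g x y
      = ((k:ℝ) + 1) ^ 2
        * ∫ q in cell k (idx k x) ×ˢ cell k (idx k y), (g x y - g q.1 q.2) := by
    have hc : IntegrableOn (fun _q : ℝ × ℝ => g x y)
        (cell k (idx k x) ×ˢ cell k (idx k y)) := by
      rw [integrableOn_const_iff]
      exact Or.inr hfin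
    rw [integral_sub hc hint, mul_sub, ← hconst, ← hstep]
  have hnorm := norm_setIntegral_le_of_norm_le_const (μ := volume)
    (s := cell k (idx k x) ×ˢ cell k (idx k y)) (C := δ) hfin hbound
  rw [volume_real_cell_prod, Real.norm_eq_abs] at hnorm
  rw [hdiff, abs_mul, abs_of_pos (by positivity)]
  calc ((k:ℝ) + 1) ^ 2
        * |∫ q in cell k (idx k x) ×ˢ cell k (idx k y), (g x y - g q.1 q.2)|
      ≤ ((k:ℝ) + 1) ^ 2 * (δ * (1 / ((k:ℝ) + 1) ^ 2)) := by
        apply mul_le_mul_of_nonneg_left hnorm (by positivity)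
    _ = δ := by
        field_simp

end Vale.Agent.Lib.P050.Gr
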