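import Vale.Agent.Lib.P050.GrCell
open MeasureTheory Set
namespace Vale.Agent.Lib.P050.Gr

theorem exists_continuous_close (W : ℝ → ℝ → ℝ) (hmeas : Measurable (Function.uncurry W))
    (C : ℝ) (hC : ∀ x y, |W x y| ≤ C) {δ : ℝ} (hδ : 0 < δ) :
    ∃ g : ℝ → ℝ → ℝ, Continuous (Function.uncurry g) ∧
      ∫ p in sq, |W p.1 p.2 - g p.1 p.2| ≤ δ := by
  have hWint : IntegrableOn (Function.uncurry W) sq := by
    refine IntegrableOn.of_bound (by rw [volume_sq]; exact ENNReal.one_lt_top)
      hmeas.aestronglyMeasurable C ?_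
    exact Filter.Eventually.of_forall fun p => by rw [Real.norm_eq_abs]; exact hC p.1 p.2
  have hf : Integrable (sq.indicator (Function.uncurry W)) :=
    (integrable_indicator_iff measurableSet_sq).mpr hWint
  obtain ⟨g₀, -, hg₀, hg₀c, hg₀i⟩ := hf.exists_hasCompactSupport_integral_sub_le hδ
  refine ⟨fun x y => g₀ (x, y), ?_, ?_⟩
  · exact hg₀c
  · have hint : Integrable (fun p => ‖sq.indicator (Function.uncurry W) p - g₀ p‖) :=
      (hf.sub hg₀i).norm
    calc ∫ p in sq, |W p.1 p.2 - g₀ (p.1, p.2)|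
        = ∫ p in sq, ‖sq.indicator (Function.uncurry W) p - g₀ p‖ := by
          refine setIntegral_congr_fun measurableSet_sq fun p hp => ?_
          show |W p.1 p.2 - g₀ (p.1, p.2)| = ‖sq.indicator (Function.uncurry W) p - g₀ p‖
          rw [Set.indicator_of_mem hp, Real.norm_eq_abs]
          rfl
      _ ≤ ∫ p, ‖sq.indicator (Function.uncurry W) p - g₀ p‖ :=
          setIntegral_le_integral hint (Filter.Eventually.of_forall fun p => norm_nonneg _)
      _ ≤ δ := hg₀

end Vale.Agent.Lib.P050.Gr
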