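import Vale.Agent.Lib.P050.GrT4
import Vale.Agent.Lib.P050.GrT5
import Vale.Agent.Lib.P050.GrT6

/-!
Block averages of a bounded measurable kernel converge to the kernel in `L¹` of the unit square.
-/

open MeasureTheory Set

namespace Vale.Agent.Lib.P050.Gr

/-- a bounded measurable function is integrable on the unit square -/
theorem integrableOn_sq_of_bdd (f : ℝ × ℝ → ℝ) (hf : Measurable f) (C : ℝ)
    (h : ∀ p, |f p| ≤ C) : IntegrableOn f sq := by
  refine IntegrableOn.of_bound (by rw [volume_sq]; exact ENNReal.one_lt_top)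
    hf.aestronglyMeasurable C ?_
  exact Filter.Eventually.of_forall fun p => by rw [Real.norm_eq_abs]; exact h p

theorem abs_stepK_le (k : ℕ) (W : ℝ → ℝ → ℝ) (x y : ℝ) :
    |stepK k W x y| ≤ ∑ i : Fin (k + 1), ∑ j : Fin (k + 1), |blk k W i j| := by
  unfold stepK
  have h1 : |blk k W (idx k x) (idx k y)| ≤ ∑ j : Fin (k + 1), |blk k W (idx k x) j| :=
    Finset.single_le_sum (f := fun j => |blk k W (idx k x) j|) (fun j _ => abs_nonneg _)
      (Finset.mem_univ (idx k y))
  have h2 : ∑ j : Fin (k + 1), |blk k W (idx k x) j|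
      ≤ ∑ i : Fin (k + 1), ∑ j : Fin (k + 1), |blk k W i j| :=
    Finset.single_le_sum (f := fun i => ∑ j : Fin (k + 1), |blk k W i j|)
      (fun i _ => Finset.sum_nonneg fun j _ => abs_nonneg _) (Finset.mem_univ (idx k x))
  exact h1.trans h2

theorem integrableOn_stepK (k : ℕ) (W : ℝ → ℝ → ℝ) :
    IntegrableOn (fun p : ℝ × ℝ => stepK k W p.1 p.2) sq :=
  integrableOn_sq_of_bdd _ (measurable_stepK k W) _ (fun p => abs_stepK_le k W p.1 p.2)

/-- block averaging is linear -/
theorem stepK_sub (k : ℕ) (g h : ℝ → ℝ → ℝ) (hg : IntegrableOn (fun p : ℝ × ℝ => g p.1 p.2) sq)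
    (hh : IntegrableOn (fun p : ℝ × ℝ => h p.1 p.2) sq) (x y : ℝ) :
    stepK k (fun a b => g a b - h a b) x y = stepK k g x y - stepK k h x y := by
  unfold stepK blk
  rw [integral_sub (hg.mono_set (cell_prod_subset_sq k _ _))
    (hh.mono_set (cell_prod_subset_sq k _ _))]
  ring

/-- block averages converge in `L¹` of the unit square -/
theorem exists_stepK_close (W : ℝ → ℝ → ℝ) (hmeas : Measurable (Function.uncurry W))
    (C : ℝ) (hC : ∀ x y, |W x y| ≤ C) {δ : ℝ} (hδ : 0 < δ) :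
    ∃ K : ℕ, ∀ k, K ≤ k → ∫ p in sq, |W p.1 p.2 - stepK k W p.1 p.2| ≤ δ := by
  obtain ⟨g, hgc, hgW⟩ := exists_continuous_close W hmeas C hC (by positivity : 0 < δ / 3)
  obtain ⟨K, hK⟩ := stepK_close_of_continuous g hgc (by positivity : 0 < δ / 3)
  refine ⟨K, fun k hk => ?_⟩
  have hWint : IntegrableOn (fun p : ℝ × ℝ => W p.1 p.2) sq :=
    integrableOn_sq_of_bdd _ hmeas C (fun p => hC p.1 p.2)
  have hgint : IntegrableOn (fun p : ℝ × ℝ => g p.1 p.2) sq := by
    have h : IntegrableOn (Function.uncurry g) sq volume :=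
      hgc.continuousOn.integrableOn_compact (isCompact_Icc.prod isCompact_Icc)
    exact h
  have hdint : IntegrableOn (fun p : ℝ × ℝ => W p.1 p.2 - g p.1 p.2) sq := hWint.sub hgint
  have hcontr := integral_abs_stepK_le k (fun a b => W a b - g a b) hdint
  have hpt : ∀ p ∈ sq, |W p.1 p.2 - stepK k W p.1 p.2|
      ≤ |W p.1 p.2 - g p.1 p.2| + δ / 3 + |stepK k (fun a b => W a b - g a b) p.1 p.2| := by
    intro p hp
    have h1 := hK k hk p.1 hp.1 p.2 hp.2
    rw [stepK_sub k W g hWint hgint]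
    have e : W p.1 p.2 - stepK k W p.1 p.2
        = (W p.1 p.2 - g p.1 p.2) + (g p.1 p.2 - stepK k g p.1 p.2)
          - (stepK k W p.1 p.2 - stepK k g p.1 p.2) := by ring
    rw [e]
    calc |(W p.1 p.2 - g p.1 p.2) + (g p.1 p.2 - stepK k g p.1 p.2)
          - (stepK k W p.1 p.2 - stepK k g p.1 p.2)|
        ≤ |(W p.1 p.2 - g p.1 p.2) + (g p.1 p.2 - stepK k g p.1 p.2)|
          + |stepK k W p.1 p.2 - stepK k g p.1 p.2| := abs_sub _ _
      _ ≤ |W p.1 p.2 - g p.1 p.2| + |g p.1 p.2 - stepK k g p.1 p.2|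
          + |stepK k W p.1 p.2 - stepK k g p.1 p.2| := by
          gcongr
          exact abs_add_le _ _
      _ ≤ |W p.1 p.2 - g p.1 p.2| + δ / 3
          + |stepK k W p.1 p.2 - stepK k g p.1 p.2| := by gcongr
  have hi1 : IntegrableOn (fun p : ℝ × ℝ => |W p.1 p.2 - g p.1 p.2|) sq := hdint.abs
  have hi2 : IntegrableOn (fun p : ℝ × ℝ => |stepK k (fun a b => W a b - g a b) p.1 p.2|) sq :=
    (integrableOn_stepK k _).abs
  have hi3 : IntegrableOn (fun _ : ℝ × ℝ => δ / 3) sq :=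
    integrableOn_const (by rw [volume_sq]; exact ENNReal.one_ne_top)
  have hi13 : IntegrableOn (fun p : ℝ × ℝ => |W p.1 p.2 - g p.1 p.2| + δ / 3) sq :=
    hi1.add hi3
  have hi132 : IntegrableOn (fun p : ℝ × ℝ => |W p.1 p.2 - g p.1 p.2| + δ / 3
      + |stepK k (fun a b => W a b - g a b) p.1 p.2|) sq := hi13.add hi2
  calc ∫ p in sq, |W p.1 p.2 - stepK k W p.1 p.2|
      ≤ ∫ p in sq, (|W p.1 p.2 - g p.1 p.2| + δ / 3
          + |stepK k (fun a b => W a b - g a b) p.1 p.2|) := by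
        refine setIntegral_mono_on ?_ hi132 measurableSet_sq hpt
        exact (hWint.sub (integrableOn_stepK k W)).abs
    _ = (∫ p in sq, |W p.1 p.2 - g p.1 p.2|) + δ / 3
          + ∫ p in sq, |stepK k (fun a b => W a b - g a b) p.1 p.2| := by
        rw [integral_add hi13 hi2, integral_add hi1 hi3, setIntegral_const,
          volume_real_sq, one_smul]
    _ ≤ δ / 3 + δ / 3 + δ / 3 := by
        gcongr
        exact hcontr.trans hgW
    _ = δ := by ring

end Vale.Agent.Lib.P050.Gr
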