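import Mathlib

/-!
Definitions for the kernel (graphon) version of the local Sidorenko inequality:
the unit cube, the unit square, the grid with `k + 1` cells and block averages.
-/

namespace Vale.Agent.Lib.P050.Gr

/-- the unit cube `[0,1]^V` -/
def cube (V : Type) : Set (V → ℝ) := Set.pi Set.univ fun _ => Set.Icc (0:ℝ) 1

/-- the unit square `[0,1]^2` -/
def sq : Set (ℝ × ℝ) := Set.Icc (0:ℝ) 1 ×ˢ Set.Icc (0:ℝ) 1

/-- the index of the cell containing `x` in the grid that cuts `[0,1]` into `k + 1` equal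
intervals (clamped to the last cell at `x = 1` and outside `[0,1]`) -/
noncomputable def idx (k : ℕ) (x : ℝ) : Fin (k + 1) :=
  ⟨min ⌊((k:ℝ) + 1) * x⌋₊ k, Nat.lt_succ_of_le (min_le_right _ _)⟩

/-- the `i`-th cell of the grid: the points of `[0,1]` with cell index `i` -/
def cell (k : ℕ) (i : Fin (k + 1)) : Set ℝ := Set.Icc (0:ℝ) 1 ∩ idx k ⁻¹' {i}

/-- the block averages of `W` over the cells of the grid -/
noncomputable def blk (k : ℕ) (W : ℝ → ℝ → ℝ) (i j : Fin (k + 1)) : ℝ :=
  ((k:ℝ) + 1) ^ 2 * ∫ p in cell k i ×ˢ cell k j, W p.1 p.2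

/-- the step kernel of block averages -/
noncomputable def stepK (k : ℕ) (W : ℝ → ℝ → ℝ) (x y : ℝ) : ℝ := blk k W (idx k x) (idx k y)

end Vale.Agent.Lib.P050.Gr
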