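import Vale.Agent.Lib.P050.GrCell
open MeasureTheory Set
namespace Vale.Agent.Lib.P050.Gr

/-- the box of points of the cube whose coordinates lie in prescribed cells -/
def boxT2 {V : Type} (k : ℕ) (φ : V → Fin (k + 1)) : Set (V → ℝ) :=
  Set.pi Set.univ fun v => cell k (φ v)

theorem measurableSet_boxT2 {V : Type} [Fintype V] (k : ℕ) (φ : V → Fin (k + 1)) :
    MeasurableSet (boxT2 k φ) :=
  MeasurableSet.univ_pi fun v => measurableSet_cell k (φ v)

theorem idx_of_mem_boxT2 {V : Type} {k : ℕ} {φ : V → Fin (k + 1)} {x : V → ℝ}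
    (hx : x ∈ boxT2 k φ) : (fun v => idx k (x v)) = φ := by
  funext v
  exact idx_of_mem_cell (hx v (mem_univ v))

theorem boxT2_disjoint (V : Type) (k : ℕ) :
    Pairwise (Function.onFun Disjoint (boxT2 (V := V) k)) := by
  intro φ ψ hne
  rw [Function.onFun, Set.disjoint_left]
  intro x hx hx'
  exact hne ((idx_of_mem_boxT2 hx).symm.trans (idx_of_mem_boxT2 hx'))

theorem cube_eq_iUnion_boxT2 (V : Type) (k : ℕ) :
    cube V = ⋃ φ : V → Fin (k + 1), boxT2 k φ := by
  ext x
  simp only [mem_iUnion]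
  constructor
  · intro hx
    exact ⟨fun v => idx k (x v), fun v _ => mem_cell_idx (hx v (mem_univ v))⟩
  · rintro ⟨φ, hφ⟩
    exact fun v hv => cell_subset k (φ v) (hφ v hv)

theorem volume_boxT2 {V : Type} [Fintype V] (k : ℕ) (φ : V → Fin (k + 1)) :
    volume (boxT2 k φ) = ENNReal.ofReal (1 / ((k:ℝ) + 1)) ^ Fintype.card V := by
  unfold boxT2
  rw [volume_pi_pi]
  simp only [volume_cell, Finset.prod_const, Finset.card_univ]

theorem volume_real_boxT2 {V : Type} [Fintype V] (k : ℕ) (φ : V → Fin (k + 1)) :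
    volume.real (boxT2 k φ) = 1 / ((k:ℝ) + 1) ^ Fintype.card V := by
  rw [Measure.real, volume_boxT2, ENNReal.toReal_pow, ENNReal.toReal_ofReal (by positivity),
    one_div, one_div, inv_pow]

theorem integral_cube_step {V : Type} [Fintype V] [DecidableEq V] (k : ℕ) (F : (V → Fin (k + 1)) → ℝ) :
    ∫ x in cube V, F (fun v => idx k (x v))
      = (∑ φ : V → Fin (k + 1), F φ) / ((k:ℝ) + 1) ^ Fintype.card V := by
  have hfin : ∀ φ : V → Fin (k + 1), volume (boxT2 k φ) ≠ ⊤ := by
    intro φ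
    rw [volume_boxT2]
    exact ENNReal.pow_ne_top ENNReal.ofReal_ne_top
  have heq : ∀ φ : V → Fin (k + 1),
      EqOn (fun _ : V → ℝ => F φ) (fun x : V → ℝ => F (fun v => idx k (x v))) (boxT2 k φ) := by
    intro φ x hx
    simp only
    rw [idx_of_mem_boxT2 hx]
  have hint : ∀ φ : V → Fin (k + 1),
      IntegrableOn (fun x : V → ℝ => F (fun v => idx k (x v))) (boxT2 k φ) := by
    intro φ
    have hc : IntegrableOn (fun _ : V → ℝ => F φ) (boxT2 k φ) :=
      integrableOn_const (hfin φ)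
    exact hc.congr_fun (heq φ) (measurableSet_boxT2 k φ)
  have hpiece : ∀ φ : V → Fin (k + 1), ∫ x in boxT2 k φ, F (fun v => idx k (x v))
      = F φ / ((k:ℝ) + 1) ^ Fintype.card V := by
    intro φ
    rw [← setIntegral_congr_fun (measurableSet_boxT2 k φ) (heq φ), setIntegral_const,
      volume_real_boxT2, smul_eq_mul]
    ring
  rw [cube_eq_iUnion_boxT2 V k,
    integral_iUnion_fintype (fun φ => measurableSet_boxT2 k φ) (boxT2_disjoint V k) hint]
  simp only [hpiece]
  rw [Finset.sum_div]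

end Vale.Agent.Lib.P050.Gr
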