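import Vale.Agent.Lib.P050.GrCell
open MeasureTheory Set
namespace Vale.Agent.Lib.P050.Gr

theorem blk_symm (k : ℕ) (W : ℝ → ℝ → ℝ) (hsymm : ∀ x y, W x y = W y x) (i j : Fin (k + 1)) :
    blk k W i j = blk k W j i := by
  unfold blk
  congr 1
  have h := MeasureTheory.setIntegral_prod_swap (μ := (volume : Measure ℝ))
    (ν := (volume : Measure ℝ)) (cell k i) (cell k j) (fun p : ℝ × ℝ => W p.1 p.2)
  rw [Measure.volume_eq_prod]
  rw [← h]
  refine setIntegral_congr_fun ((measurableSet_cell k j).prod (measurableSet_cell k i)) ?_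
  intro p _
  exact hsymm p.2 p.1

theorem sum_blk (k : ℕ) (W : ℝ → ℝ → ℝ) (hint : IntegrableOn (fun p : ℝ × ℝ => W p.1 p.2) sq) :
    ∑ i, ∑ j, blk k W i j = ((k:ℝ) + 1) ^ 2 * ∫ p in sq, W p.1 p.2 := by
  unfold blk
  simp only [← Finset.mul_sum]
  rw [integral_sq_eq_sum k _ hint]

theorem abs_blk_sub_one_le (k : ℕ) (W : ℝ → ℝ → ℝ) (hmeas : Measurable (Function.uncurry W))
    {ε : ℝ} (h : ∀ x y, |W x y - 1| ≤ ε) (i j : Fin (k + 1)) :
    |blk k W i j - 1| ≤ ε := by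
  have hε : 0 ≤ ε := (abs_nonneg _).trans (h 0 0)
  have hk : (0:ℝ) < (k:ℝ) + 1 := by positivity
  have hk2 : (0:ℝ) < ((k:ℝ) + 1) ^ 2 := by positivity
  have hfin : volume (cell k i ×ˢ cell k j) < ⊤ := by
    rw [volume_cell_prod]
    exact ENNReal.ofReal_lt_top
  have hm : Measurable (fun p : ℝ × ℝ => W p.1 p.2) := hmeas
  have hbound : ∀ p : ℝ × ℝ, ‖W p.1 p.2‖ ≤ ε + 1 := by
    intro p
    have h1 := abs_le.mp (h p.1 p.2)
    rw [Real.norm_eq_abs, abs_le]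
    constructor <;> linarith
  have hint : IntegrableOn (fun p : ℝ × ℝ => W p.1 p.2) (cell k i ×ˢ cell k j) := by
    refine Measure.integrableOn_of_bounded (M := ε + 1) (ne_of_lt hfin)
      hm.aestronglyMeasurable ?_
    exact Filter.Eventually.of_forall hbound
  have hone : IntegrableOn (fun _ : ℝ × ℝ => (1:ℝ)) (cell k i ×ˢ cell k j) :=
    integrableOn_const (ne_of_lt hfin)
  have hvol : volume.real (cell k i ×ˢ cell k j) = 1 / ((k:ℝ) + 1) ^ 2 :=
    volume_real_cell_prod k i j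
  have hsub : ∫ p in cell k i ×ˢ cell k j, (W p.1 p.2 - 1)
      = (∫ p in cell k i ×ˢ cell k j, W p.1 p.2) - 1 / ((k:ℝ) + 1) ^ 2 := by
    rw [integral_sub hint hone, setIntegral_const, hvol]
    simp
  have hle : ‖∫ p in cell k i ×ˢ cell k j, (W p.1 p.2 - 1)‖
      ≤ ε * volume.real (cell k i ×ˢ cell k j) := by
    refine norm_setIntegral_le_of_norm_le_const hfin ?_
    intro p _
    rw [Real.norm_eq_abs]
    exact h p.1 p.2
  have hkey : blk k W i j - 1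
      = ((k:ℝ) + 1) ^ 2 * ∫ p in cell k i ×ˢ cell k j, (W p.1 p.2 - 1) := by
    unfold blk
    rw [hsub]
    field_simp
  rw [hkey, abs_mul, abs_of_pos hk2]
  rw [Real.norm_eq_abs, hvol] at hle
  calc ((k:ℝ) + 1) ^ 2 * |∫ p in cell k i ×ˢ cell k j, (W p.1 p.2 - 1)|
      ≤ ((k:ℝ) + 1) ^ 2 * (ε * (1 / ((k:ℝ) + 1) ^ 2)) :=
        mul_le_mul_of_nonneg_left hle hk2.le
    _ = ε := by field_simp

end Vale.Agent.Lib.P050.Gr
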