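import Vale.Agent.Lib.P050.LocMain

namespace Vale.Agent.Lib.P050.Loc

/-- The local Sidorenko inequality with constant `log 2`: for a bipartite graph `H` with `m`
edges and a symmetric weight `W` on a finite set with uniform measure, of mean `1` and with
`|W - 1| * m ≤ log 2` everywhere, the homomorphism density of `H` in `W` is at least `1`. -/
theorem local_sidorenko {V : Type} [Fintype V] [DecidableEq V] (H : SimpleGraph V)
    [DecidableRel H.Adj] (hH : H.IsBipartite) {Ω : Type} [Fintype Ω] [Nonempty Ω]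
    (W : Ω → Ω → ℝ) (hsymm : ∀ x y, W x y = W y x)
    (hden : (∑ x, ∑ y, W x y) / (Fintype.card Ω : ℝ) ^ 2 = 1)
    (hloc : ∀ x y, |W x y - 1| * (H.edgeFinset.card : ℝ) ≤ Real.log 2) :
    1 ≤ (∑ φ : V → Ω, ∏ e ∈ H.edgeFinset,
          Sym2.lift ⟨fun a b => W (φ a) (φ b), fun a b => hsymm (φ a) (φ b)⟩ e)
        / (Fintype.card Ω : ℝ) ^ Fintype.card V := by
  classical
  obtain ⟨C⟩ := hH
  have hNpos : (0 : ℝ) < (Fintype.card Ω : ℝ) := by exact_mod_cast Fintype.card_pos
  have hsum : ∑ x, ∑ y, W x y = (Fintype.card Ω : ℝ) ^ 2 := by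
    have h2 : ((Fintype.card Ω : ℝ) ^ 2) ≠ 0 := by positivity
    rw [div_eq_iff h2, one_mul] at hden
    exact hden
  let Kf : Sym2 Ω → ℝ := Sym2.lift ⟨fun a b => W a b - 1, fun a b => by
    show W a b - 1 = W b a - 1
    rw [hsymm a b]⟩
  have hKf : ∀ a b, Kf s(a, b) = W a b - 1 := fun a b => rfl
  have hmean : avg (dg Kf) = 0 := by
    have h1 : ∑ x, ∑ y, (W x y - 1) = 0 := by
      simp only [Finset.sum_sub_distrib, Finset.sum_const, Finset.card_univ, nsmul_eq_mul,
        mul_one]
      rw [hsum]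
      ring
    unfold avg dg avg
    simp only [hKf]
    rw [← Finset.sum_div, h1, zero_div, zero_div]
  by_cases hm : H.edgeFinset.card = 0
  · have h0 : H.edgeFinset = ∅ := Finset.card_eq_zero.mp hm
    rw [h0]
    simp only [Finset.prod_empty, Finset.sum_const, Finset.card_univ, nsmul_eq_mul, mul_one]
    rw [Fintype.card_fun, Nat.cast_pow, div_self (by positivity)]
  · have hmpos : (0 : ℝ) < (H.edgeFinset.card : ℝ) := by exact_mod_cast Nat.pos_of_ne_zero hm
    have hbd : ∀ z, |Kf z| ≤ Real.log 2 / (H.edgeFinset.card : ℝ) := by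
      intro z
      induction z using Sym2.ind with
      | _ a b =>
        rw [hKf, le_div_iff₀ hmpos]
        exact hloc a b
    have hsmall : Real.log 2 / (H.edgeFinset.card : ℝ) * (H.edgeFinset.card : ℝ) ≤ Real.log 2 := by
      rw [div_mul_cancel₀ _ hmpos.ne']
    have hcol : ∀ a b, s(a, b) ∈ H.edgeFinset → C a ≠ C b := by
      intro a b hab
      rw [SimpleGraph.mem_edgeFinset, SimpleGraph.mem_edgeSet] at hab
      exact C.valid hab
    have h := local_main H.edgeFinset (fun v => C v) hcol Kf hmean _ hbd hsmall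
    unfold avg at h
    rw [Fintype.card_fun, Nat.cast_pow] at h
    refine le_of_le_of_eq h ?_
    congr 1
    refine Finset.sum_congr rfl fun φ _ => Finset.prod_congr rfl fun e _ => ?_
    induction e using Sym2.ind with
    | _ a b =>
      rw [Sym2.map_mk, hKf, Sym2.lift_mk]
      ring

end Vale.Agent.Lib.P050.Loc
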