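import Vale.Agent.Lib.P050.GrHom
import Vale.Agent.Lib.P050.GrT2
import Vale.Agent.Lib.P050.GrT3
import Vale.Agent.Lib.P050.LocIface

/-!
The local Sidorenko inequality with constant `log 2` for measurable kernels on the unit square.
-/

open MeasureTheory Set

namespace Vale.Agent.Lib.P050.Gr

theorem stepK_symm (k : ℕ) (W : ℝ → ℝ → ℝ) (hsymm : ∀ x y, W x y = W y x) (x y : ℝ) :
    stepK k W x y = stepK k W y x :=
  blk_symm k W hsymm (idx k x) (idx k y)

/-- the density of the step kernel of block averages is at least `1` -/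
theorem step_density {V : Type} [Fintype V] [DecidableEq V] (H : SimpleGraph V)
    [DecidableRel H.Adj] (hH : H.IsBipartite) (W : ℝ → ℝ → ℝ)
    (hmeas : Measurable (Function.uncurry W)) (hsymm : ∀ x y, W x y = W y x)
    (hint : IntegrableOn (fun p : ℝ × ℝ => W p.1 p.2) sq)
    (hden : ∫ p in sq, W p.1 p.2 = 1) {ε : ℝ} (hε : ∀ x y, |W x y - 1| ≤ ε)
    (hεm : ε * (H.edgeFinset.card : ℝ) ≤ Real.log 2) (k : ℕ) :
    1 ≤ ∫ x in cube V, ∏ e ∈ H.edgeFinset, ev (stepK k W) (stepK_symm k W hsymm) x e := by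
  have hk : (0:ℝ) < (k:ℝ) + 1 := by positivity
  have hT2 := integral_cube_step (V := V) k (fun φ => ∏ e ∈ H.edgeFinset,
    Sym2.lift ⟨fun a b => blk k W (φ a) (φ b), fun a b => blk_symm k W hsymm (φ a) (φ b)⟩ e)
  have hcard : (Fintype.card (Fin (k + 1)) : ℝ) = (k:ℝ) + 1 := by
    rw [Fintype.card_fin]
    push_cast
    ring
  have hden' : (∑ x, ∑ y, blk k W x y) / (Fintype.card (Fin (k + 1)) : ℝ) ^ 2 = 1 := by
    rw [sum_blk k W hint, hden, hcard, mul_one, div_self (by positivity)]
  have hloc' : ∀ i j, |blk k W i j - 1| * (H.edgeFinset.card : ℝ) ≤ Real.log 2 := by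
    intro i j
    have h1 := abs_blk_sub_one_le k W hmeas hε i j
    have h2 : (0:ℝ) ≤ (H.edgeFinset.card : ℝ) := Nat.cast_nonneg _
    calc |blk k W i j - 1| * (H.edgeFinset.card : ℝ) ≤ ε * (H.edgeFinset.card : ℝ) := by gcongr
      _ ≤ Real.log 2 := hεm
  have hfin := Loc.local_sidorenko H hH (Ω := Fin (k + 1)) (blk k W) (blk_symm k W hsymm)
    hden' hloc'
  rw [hcard] at hfin
  calc (1:ℝ) ≤ _ := hfin
    _ = ∫ x in cube V, ∏ e ∈ H.edgeFinset, ev (stepK k W) (stepK_symm k W hsymm) x e := hT2.symm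

/-- the kernel version with a pointwise bound -/
theorem kernel_local_pointwise {V : Type} [Fintype V] [DecidableEq V] (H : SimpleGraph V)
    [DecidableRel H.Adj] (hH : H.IsBipartite) (W : ℝ → ℝ → ℝ)
    (hmeas : Measurable (Function.uncurry W)) (hsymm : ∀ x y, W x y = W y x)
    (hden : ∫ p in sq, W p.1 p.2 = 1)
    (hloc : ∀ x y, |W x y - 1| * (H.edgeFinset.card : ℝ) ≤ Real.log 2) :
    1 ≤ ∫ x in cube V, ∏ e ∈ H.edgeFinset, ev W hsymm x e := by
  classical
  by_cases hm : H.edgeFinset.card = 0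
  · have h0 : H.edgeFinset = ∅ := Finset.card_eq_zero.mp hm
    rw [h0]
    simp only [Finset.prod_empty]
    rw [setIntegral_const, volume_real_cube, one_smul]
  · have hmpos : (0:ℝ) < (H.edgeFinset.card : ℝ) := by exact_mod_cast Nat.pos_of_ne_zero hm
    have hm1 : (1:ℝ) ≤ (H.edgeFinset.card : ℝ) := by exact_mod_cast Nat.pos_of_ne_zero hm
    have hlog1 : Real.log 2 ≤ 1 := by
      have := Real.log_two_lt_d9
      linarith
    have hlog0 : 0 < Real.log 2 := Real.log_pos (by norm_num)
    have hε : ∀ x y, |W x y - 1| ≤ Real.log 2 / (H.edgeFinset.card : ℝ) := by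
      intro x y
      rw [le_div_iff₀ hmpos]
      exact hloc x y
    have hεm : Real.log 2 / (H.edgeFinset.card : ℝ) * (H.edgeFinset.card : ℝ) ≤ Real.log 2 := by
      rw [div_mul_cancel₀ _ hmpos.ne']
    have hε1 : Real.log 2 / (H.edgeFinset.card : ℝ) ≤ 1 := by
      rw [div_le_one hmpos]
      linarith
    have hWB : ∀ x y, |W x y| ≤ 2 := by
      intro x y
      have h := (hε x y).trans hε1
      rw [abs_le] at h ⊢
      constructor <;> linarith [h.1, h.2]
    have hint : IntegrableOn (fun p : ℝ × ℝ => W p.1 p.2) sq :=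
      integrableOn_sq_of_bdd _ hmeas 2 (fun p => hWB p.1 p.2)
    have hSB : ∀ k x y, |stepK k W x y| ≤ 2 := by
      intro k x y
      have h := (abs_blk_sub_one_le k W hmeas hε (idx k x) (idx k y)).trans hε1
      unfold stepK
      rw [abs_le] at h ⊢
      constructor <;> linarith [h.1, h.2]
    have hstep := step_density H hH W hmeas hsymm hint hden hε hεm
    have hF : ∀ e ∈ H.edgeFinset, ¬ e.IsDiag := by
      intro e he
      rw [SimpleGraph.mem_edgeFinset] at he
      exact H.not_isDiag_of_mem_edgeSet he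
    by_contra hcon
    push Not at hcon
    have hc2 : (0:ℝ) < (2:ℝ) ^ H.edgeFinset.card * (H.edgeFinset.card : ℝ) := by positivity
    have hδ : 0 < (1 - ∫ x in cube V, ∏ e ∈ H.edgeFinset, ev W hsymm x e) / 2
        / ((2:ℝ) ^ H.edgeFinset.card * (H.edgeFinset.card : ℝ)) := by
      apply div_pos _ hc2
      linarith
    obtain ⟨K, hK⟩ := exists_stepK_close W hmeas 2 hWB hδ
    have hcount := counting H.edgeFinset hF W (stepK K W) hmeas (measurable_stepK K W) hsymm
      (stepK_symm K W hsymm) 2 (by norm_num) hWB (hSB K)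
    have hKK := hK K le_rfl
    have h3 : (2:ℝ) ^ H.edgeFinset.card
        * ((H.edgeFinset.card : ℝ) * ∫ p in sq, |W p.1 p.2 - stepK K W p.1 p.2|)
        ≤ (1 - ∫ x in cube V, ∏ e ∈ H.edgeFinset, ev W hsymm x e) / 2 := by
      rw [le_div_iff₀ hc2] at hKK
      linarith
    have h4 := (abs_le.mp (hcount.trans h3)).1
    have h5 := hstep K
    linarith

/-- the kernel version with an almost-everywhere bound -/
theorem kernel_local {V : Type} [Fintype V] [DecidableEq V] (H : SimpleGraph V)
    [DecidableRel H.Adj] (hH : H.IsBipartite) (W : ℝ → ℝ → ℝ)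
    (hmeas : Measurable (Function.uncurry W)) (hsymm : ∀ x y, W x y = W y x)
    (hden : ∫ p in sq, W p.1 p.2 = 1)
    (hloc : ∀ᵐ p ∂(volume.restrict sq),
      |W p.1 p.2 - 1| * (H.edgeFinset.card : ℝ) ≤ Real.log 2) :
    1 ≤ ∫ x in cube V, ∏ e ∈ H.edgeFinset, ev W hsymm x e := by
  classical
  let W' : ℝ → ℝ → ℝ := fun x y =>
    if |W x y - 1| * (H.edgeFinset.card : ℝ) ≤ Real.log 2 then W x y else 1
  have hW'def : ∀ x y, W' x y
      = if |W x y - 1| * (H.edgeFinset.card : ℝ) ≤ Real.log 2 then W x y else 1 := fun _ _ => rfl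
  have hW'meas : Measurable (Function.uncurry W') := by
    have hset : MeasurableSet
        {p : ℝ × ℝ | |Function.uncurry W p - 1| * (H.edgeFinset.card : ℝ) ≤ Real.log 2} :=
      measurableSet_le (((hmeas.sub measurable_const).abs).mul measurable_const) measurable_const
    exact Measurable.ite hset hmeas measurable_const
  have hW'symm : ∀ x y, W' x y = W' y x := by
    intro x y
    rw [hW'def, hW'def, hsymm x y]
  have hW'loc : ∀ x y, |W' x y - 1| * (H.edgeFinset.card : ℝ) ≤ Real.log 2 := by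
    intro x y
    rw [hW'def]
    split_ifs with h
    · exact h
    · rw [sub_self, abs_zero, zero_mul]
      exact Real.log_nonneg (by norm_num)
  have hW'den : ∫ p in sq, W' p.1 p.2 = 1 := by
    rw [← hden]
    apply integral_congr_ae
    filter_upwards [hloc] with p hp
    rw [hW'def, if_pos hp]
  have key := kernel_local_pointwise H hH W' hW'meas hW'symm hW'den hW'loc
  have h1 : ∀ e ∈ H.edgeFinset, ∀ᵐ x ∂(volume.restrict (cube V)),
      ev W' hW'symm x e = ev W hsymm x e := by
    intro e he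
    induction e using Sym2.ind with
    | _ a b =>
      have hab : a ≠ b := by
        rw [SimpleGraph.mem_edgeFinset, SimpleGraph.mem_edgeSet] at he
        exact H.ne_of_adj he
      have h2 := hloc
      rw [← map_pair_restrict_cube hab] at h2
      have hm : Measurable (fun x : V → ℝ => (x a, x b)) :=
        (measurable_pi_apply a).prodMk (measurable_pi_apply b)
      have h3 := ae_of_ae_map hm.aemeasurable h2
      filter_upwards [h3] with x hx
      rw [ev_mk, ev_mk, hW'def, if_pos hx]
  have h2 : ∀ᵐ x ∂(volume.restrict (cube V)), ∀ e ∈ H.edgeFinset,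
      ev W' hW'symm x e = ev W hsymm x e :=
    (ae_ball_iff H.edgeFinset.countable_toSet).mpr h1
  have hae : ∀ᵐ x ∂(volume.restrict (cube V)),
      ∏ e ∈ H.edgeFinset, ev W' hW'symm x e = ∏ e ∈ H.edgeFinset, ev W hsymm x e := by
    filter_upwards [h2] with x hx
    exact Finset.prod_congr rfl hx
  rw [← integral_congr_ae hae]
  exact key

end Vale.Agent.Lib.P050.Gr
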