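import Vale.Agent.Lib.P050.GrCell
open MeasureTheory Set
namespace Vale.Agent.Lib.P050.Gr

theorem map_pair_restrict_cube {V : Type} [Fintype V] [DecidableEq V] {u v : V} (huv : u ≠ v) :
    Measure.map (fun x : V → ℝ => (x u, x v)) (volume.restrict (cube V)) = volume.restrict sq := by
  have hmeas : Measurable (fun x : V → ℝ => (x u, x v)) :=
    (measurable_pi_apply u).prodMk (measurable_pi_apply v)
  have hsq : (volume.restrict sq : Measure (ℝ × ℝ)) =
      (volume.restrict (Icc (0:ℝ) 1)).prod (volume.restrict (Icc (0:ℝ) 1)) := by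
    rw [sq, Measure.volume_eq_prod, ← Measure.prod_restrict]
  rw [hsq]
  symm
  refine Measure.prod_eq (fun s t hs ht => ?_)
  rw [Measure.map_apply hmeas (hs.prod ht), Measure.restrict_apply (hmeas (hs.prod ht))]
  have hset : (fun x : V → ℝ => (x u, x v)) ⁻¹' s ×ˢ t ∩ cube V =
      Set.pi Set.univ (fun w => if w = u then s ∩ Icc (0:ℝ) 1
        else if w = v then t ∩ Icc (0:ℝ) 1 else Icc (0:ℝ) 1) := by
    ext x
    simp only [cube, mem_inter_iff, mem_preimage, mem_prod, mem_pi, mem_univ, forall_true_left]
    constructor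
    · rintro ⟨⟨hxu, hxv⟩, hx⟩ w
      by_cases hwu : w = u
      · subst hwu
        rw [if_pos rfl]
        exact ⟨hxu, hx w⟩
      · by_cases hwv : w = v
        · subst hwv
          rw [if_neg hwu, if_pos rfl]
          exact ⟨hxv, hx w⟩
        · rw [if_neg hwu, if_neg hwv]
          exact hx w
    · intro h
      have h1 := h u
      have h2 := h v
      rw [if_pos rfl] at h1
      rw [if_neg huv.symm, if_pos rfl] at h2
      refine ⟨⟨h1.1, h2.1⟩, fun w => ?_⟩
      have h3 := h w
      by_cases hwu : w = u
      · subst hwu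
        exact h1.2
      · by_cases hwv : w = v
        · subst hwv
          exact h2.2
        · rw [if_neg hwu, if_neg hwv] at h3
          exact h3
  rw [hset, volume_pi, Measure.pi_pi, Finset.prod_eq_mul u v huv]
  · rw [if_pos rfl, if_neg huv.symm, if_pos rfl, Measure.restrict_apply hs,
      Measure.restrict_apply ht]
  · intro w _ hw
    rw [if_neg hw.1, if_neg hw.2, Real.volume_Icc]
    simp
  · intro h
    exact absurd (Finset.mem_univ u) h
  · intro h
    exact absurd (Finset.mem_univ v) h

end Vale.Agent.Lib.P050.Gr
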