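import Vale.Agent.Lib.P050.GrConv
import Vale.Agent.Lib.P050.GrT1

/-!
Homomorphism densities of kernels: measurability, integrability and the counting lemma
(continuity of the density in `L¹` of the unit square for uniformly bounded kernels).
-/

open MeasureTheory Set

namespace Vale.Agent.Lib.P050.Gr

theorem abs_prod_sub_prod_le {ι : Type} [DecidableEq ι] (s : Finset ι) (a b : ι → ℝ) (B : ℝ)
    (hB : 1 ≤ B) (ha : ∀ e ∈ s, |a e| ≤ B) (hb : ∀ e ∈ s, |b e| ≤ B) :
    |∏ e ∈ s, a e - ∏ e ∈ s, b e| ≤ B ^ s.card * ∑ e ∈ s, |a e - b e| := by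
  induction s using Finset.induction_on with
  | empty => simp
  | insert e s he ih =>
    have hB0 : (0:ℝ) ≤ B := by linarith
    have ha' : ∀ e ∈ s, |a e| ≤ B := fun x hx => ha x (Finset.mem_insert_of_mem hx)
    have hb' : ∀ e ∈ s, |b e| ≤ B := fun x hx => hb x (Finset.mem_insert_of_mem hx)
    have ih' := ih ha' hb'
    rw [Finset.prod_insert he, Finset.prod_insert he, Finset.sum_insert he,
      Finset.card_insert_of_notMem he]
    have hpa : |∏ x ∈ s, a x| ≤ B ^ s.card := by
      rw [Finset.abs_prod]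
      calc ∏ x ∈ s, |a x| ≤ ∏ _x ∈ s, B :=
            Finset.prod_le_prod (fun x _ => abs_nonneg _) ha'
        _ = B ^ s.card := by rw [Finset.prod_const]
    have hsum : (0:ℝ) ≤ ∑ x ∈ s, |a x - b x| := Finset.sum_nonneg fun x _ => abs_nonneg _
    have hBpow : (0:ℝ) ≤ B ^ s.card := by positivity
    have hBpow1 : B ^ s.card ≤ B ^ (s.card + 1) := by
      rw [pow_succ]
      nlinarith
    have e1 : a e * ∏ x ∈ s, a x - b e * ∏ x ∈ s, b x
        = (a e - b e) * ∏ x ∈ s, a x + b e * (∏ x ∈ s, a x - ∏ x ∈ s, b x) := by ring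
    rw [e1]
    calc |(a e - b e) * ∏ x ∈ s, a x + b e * (∏ x ∈ s, a x - ∏ x ∈ s, b x)|
        ≤ |(a e - b e) * ∏ x ∈ s, a x| + |b e * (∏ x ∈ s, a x - ∏ x ∈ s, b x)| :=
          abs_add_le _ _
      _ = |a e - b e| * |∏ x ∈ s, a x| + |b e| * |∏ x ∈ s, a x - ∏ x ∈ s, b x| := by
          rw [abs_mul, abs_mul]
      _ ≤ |a e - b e| * B ^ s.card + B * (B ^ s.card * ∑ x ∈ s, |a x - b x|) := by
          have := hb e (Finset.mem_insert_self e s)
          gcongr
      _ ≤ |a e - b e| * B ^ (s.card + 1) + B * (B ^ s.card * ∑ x ∈ s, |a x - b x|) := by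
          gcongr
      _ = B ^ (s.card + 1) * (|a e - b e| + ∑ x ∈ s, |a x - b x|) := by ring

theorem volume_cube (V : Type) [Fintype V] : volume (cube V) = 1 := by
  unfold cube
  rw [volume_pi, Measure.pi_pi]
  simp [Real.volume_Icc]

theorem volume_real_cube (V : Type) [Fintype V] : volume.real (cube V) = 1 := by
  rw [Measure.real, volume_cube]
  simp

theorem measurableSet_cube (V : Type) [Fintype V] : MeasurableSet (cube V) :=
  MeasurableSet.univ_pi fun _ => measurableSet_Icc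

/-- the value of a symmetric kernel on an edge, at a point of the cube -/
noncomputable def ev {V : Type} (W : ℝ → ℝ → ℝ) (hsymm : ∀ x y, W x y = W y x) (x : V → ℝ)
    (e : Sym2 V) : ℝ :=
  Sym2.lift ⟨fun a b => W (x a) (x b), fun a b => hsymm (x a) (x b)⟩ e

theorem ev_mk {V : Type} (W : ℝ → ℝ → ℝ) (hsymm : ∀ x y, W x y = W y x) (x : V → ℝ) (a b : V) :
    ev W hsymm x s(a, b) = W (x a) (x b) := rfl

theorem measurable_ev {V : Type} [Fintype V] (W : ℝ → ℝ → ℝ)
    (hmeas : Measurable (Function.uncurry W)) (hsymm : ∀ x y, W x y = W y x) (e : Sym2 V) :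
    Measurable (fun x : V → ℝ => ev W hsymm x e) := by
  induction e using Sym2.ind with
  | _ a b =>
    have h : Measurable (fun x : V → ℝ => (x a, x b)) :=
      (measurable_pi_apply a).prodMk (measurable_pi_apply b)
    exact hmeas.comp h

theorem abs_ev_le {V : Type} (W : ℝ → ℝ → ℝ) (hsymm : ∀ x y, W x y = W y x) (B : ℝ)
    (hB : ∀ x y, |W x y| ≤ B) (x : V → ℝ) (e : Sym2 V) : |ev W hsymm x e| ≤ B := by
  induction e using Sym2.ind with
  | _ a b => exact hB _ _

theorem measurable_prod_ev {V : Type} [Fintype V] (F : Finset (Sym2 V)) (W : ℝ → ℝ → ℝ)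
    (hmeas : Measurable (Function.uncurry W)) (hsymm : ∀ x y, W x y = W y x) :
    Measurable (fun x : V → ℝ => ∏ e ∈ F, ev W hsymm x e) :=
  Finset.measurable_prod F fun e _ => measurable_ev W hmeas hsymm e

theorem abs_prod_ev_le {V : Type} (F : Finset (Sym2 V)) (W : ℝ → ℝ → ℝ)
    (hsymm : ∀ x y, W x y = W y x) (B : ℝ) (hB : ∀ x y, |W x y| ≤ B) (x : V → ℝ) :
    |∏ e ∈ F, ev W hsymm x e| ≤ B ^ F.card := by
  rw [Finset.abs_prod]
  calc ∏ e ∈ F, |ev W hsymm x e| ≤ ∏ _e ∈ F, B :=
        Finset.prod_le_prod (fun e _ => abs_nonneg _) (fun e _ => abs_ev_le W hsymm B hB x e)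
    _ = B ^ F.card := by rw [Finset.prod_const]

theorem integrableOn_cube_of_bdd {V : Type} [Fintype V] (f : (V → ℝ) → ℝ) (hf : Measurable f)
    (C : ℝ) (h : ∀ x, |f x| ≤ C) : IntegrableOn f (cube V) := by
  refine IntegrableOn.of_bound (by rw [volume_cube]; exact ENNReal.one_lt_top)
    hf.aestronglyMeasurable C ?_
  exact Filter.Eventually.of_forall fun p => by rw [Real.norm_eq_abs]; exact h p

theorem integrableOn_prod_ev {V : Type} [Fintype V] (F : Finset (Sym2 V)) (W : ℝ → ℝ → ℝ)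
    (hmeas : Measurable (Function.uncurry W)) (hsymm : ∀ x y, W x y = W y x) (B : ℝ)
    (hB : ∀ x y, |W x y| ≤ B) :
    IntegrableOn (fun x : V → ℝ => ∏ e ∈ F, ev W hsymm x e) (cube V) :=
  integrableOn_cube_of_bdd _ (measurable_prod_ev F W hmeas hsymm) _
    (abs_prod_ev_le F W hsymm B hB)

/-- integral over the cube of a function of two distinct coordinates -/
theorem integral_cube_pair {V : Type} [Fintype V] [DecidableEq V] {u v : V} (huv : u ≠ v)
    (d : ℝ × ℝ → ℝ) (hd : Measurable d) :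
    ∫ x in cube V, d (x u, x v) = ∫ p in sq, d p := by
  have hm : Measurable (fun x : V → ℝ => (x u, x v)) :=
    (measurable_pi_apply u).prodMk (measurable_pi_apply v)
  rw [← map_pair_restrict_cube huv, integral_map hm.aemeasurable hd.aestronglyMeasurable]

/-- the counting lemma: densities of uniformly bounded kernels are close when the kernels are
close in `L¹` of the unit square -/
theorem counting {V : Type} [Fintype V] [DecidableEq V] (F : Finset (Sym2 V))
    (hF : ∀ e ∈ F, ¬ e.IsDiag) (W S : ℝ → ℝ → ℝ)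
    (hW : Measurable (Function.uncurry W)) (hS : Measurable (Function.uncurry S))
    (hWs : ∀ x y, W x y = W y x) (hSs : ∀ x y, S x y = S y x) (B : ℝ) (hB : 1 ≤ B)
    (hWB : ∀ x y, |W x y| ≤ B) (hSB : ∀ x y, |S x y| ≤ B) :
    |(∫ x in cube V, ∏ e ∈ F, ev W hWs x e) - ∫ x in cube V, ∏ e ∈ F, ev S hSs x e|
      ≤ B ^ F.card * ((F.card : ℝ) * ∫ p in sq, |W p.1 p.2 - S p.1 p.2|) := by
  have hiW := integrableOn_prod_ev F W hW hWs B hWB
  have hiS := integrableOn_prod_ev F S hS hSs B hSB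
  have hd : Measurable (fun p : ℝ × ℝ => |W p.1 p.2 - S p.1 p.2|) :=
    ((hW.sub hS : Measurable fun p : ℝ × ℝ => W p.1 p.2 - S p.1 p.2)).abs
  have hedge : ∀ e ∈ F, ∫ x in cube V, |ev W hWs x e - ev S hSs x e|
      = ∫ p in sq, |W p.1 p.2 - S p.1 p.2| := by
    intro e he
    have hnd := hF e he
    induction e using Sym2.ind with
    | _ a b =>
      have hab : a ≠ b := fun h => hnd (by rw [h]; exact Sym2.mk_isDiag_iff.mpr rfl)
      exact integral_cube_pair hab (fun p : ℝ × ℝ => |W p.1 p.2 - S p.1 p.2|) hd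
  have hie : ∀ e ∈ F, IntegrableOn (fun x : V → ℝ => |ev W hWs x e - ev S hSs x e|) (cube V) := by
    intro e _
    refine integrableOn_cube_of_bdd _ ((measurable_ev W hW hWs e).sub
      (measurable_ev S hS hSs e)).abs (B + B) fun x => ?_
    rw [abs_abs]
    calc |ev W hWs x e - ev S hSs x e| ≤ |ev W hWs x e| + |ev S hSs x e| := abs_sub _ _
      _ ≤ B + B := add_le_add (abs_ev_le W hWs B hWB x e) (abs_ev_le S hSs B hSB x e)
  rw [← integral_sub hiW hiS]
  calc |∫ x in cube V, (∏ e ∈ F, ev W hWs x e - ∏ e ∈ F, ev S hSs x e)|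
      ≤ ∫ x in cube V, |∏ e ∈ F, ev W hWs x e - ∏ e ∈ F, ev S hSs x e| :=
        abs_integral_le_integral_abs
    _ ≤ ∫ x in cube V, B ^ F.card * ∑ e ∈ F, |ev W hWs x e - ev S hSs x e| := by
        refine setIntegral_mono_on (hiW.sub hiS).abs ?_ (measurableSet_cube V) fun x _ => ?_
        · exact (integrable_finsetSum F hie).const_mul _
        · exact abs_prod_sub_prod_le F _ _ B hB (fun e _ => abs_ev_le W hWs B hWB x e)
            (fun e _ => abs_ev_le S hSs B hSB x e)
    _ = B ^ F.card * ∑ e ∈ F, ∫ x in cube V, |ev W hWs x e - ev S hSs x e| := by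
        rw [integral_const_mul, integral_finsetSum F hie]
    _ = B ^ F.card * ((F.card : ℝ) * ∫ p in sq, |W p.1 p.2 - S p.1 p.2|) := by
        rw [Finset.sum_congr rfl hedge, Finset.sum_const, nsmul_eq_mul]

end Vale.Agent.Lib.P050.Gr
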