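import Vale.Agent.Lib.P050.GrCell
open MeasureTheory Set
namespace Vale.Agent.Lib.P050.Gr

theorem integral_abs_stepK_le (k : ℕ) (g : ℝ → ℝ → ℝ)
    (hg : IntegrableOn (fun p : ℝ × ℝ => g p.1 p.2) sq) :
    ∫ p in sq, |stepK k g p.1 p.2| ≤ ∫ p in sq, |g p.1 p.2| := by
  have hmeas : Measurable (fun p : ℝ × ℝ => |stepK k g p.1 p.2|) :=
    (measurable_stepK k g).abs
  have hbound : ∀ a b : Fin (k + 1), |blk k g a b| ≤ ∑ i, ∑ j, |blk k g i j| := by
    intro a b
    have h1 : |blk k g a b| ≤ ∑ j, |blk k g a j| :=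
      Finset.single_le_sum (f := fun j => |blk k g a j|) (fun j _ => abs_nonneg _)
        (Finset.mem_univ b)
    have h2 : ∑ j, |blk k g a j| ≤ ∑ i, ∑ j, |blk k g i j| :=
      Finset.single_le_sum (f := fun i => ∑ j, |blk k g i j|)
        (fun i _ => Finset.sum_nonneg fun j _ => abs_nonneg _) (Finset.mem_univ a)
    exact h1.trans h2
  have hint : IntegrableOn (fun p : ℝ × ℝ => |stepK k g p.1 p.2|) sq := by
    have hfin : volume sq < ⊤ := by rw [volume_sq]; exact ENNReal.one_lt_top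
    apply IntegrableOn.of_bound hfin hmeas.aestronglyMeasurable (∑ i, ∑ j, |blk k g i j|)
    apply Filter.Eventually.of_forall
    intro p
    rw [Real.norm_eq_abs, abs_abs]
    exact hbound _ _
  have hgabs : IntegrableOn (fun p : ℝ × ℝ => |g p.1 p.2|) sq := hg.abs
  rw [integral_sq_eq_sum k _ hint, integral_sq_eq_sum k _ hgabs]
  apply Finset.sum_le_sum
  intro i _
  apply Finset.sum_le_sum
  intro j _
  have hk : (0:ℝ) < ((k:ℝ) + 1) ^ 2 := by positivity
  have h1 : ∫ p in cell k i ×ˢ cell k j, |stepK k g p.1 p.2| =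
      ∫ _p in cell k i ×ˢ cell k j, |blk k g i j| :=
    setIntegral_congr_fun (measurableSet_cell_prod k i j)
      (fun p hp => by simp only [stepK_eq_of_mem g hp])
  rw [h1, setIntegral_const, volume_real_cell_prod, smul_eq_mul]
  have h2 : 1 / ((k:ℝ) + 1) ^ 2 * |blk k g i j| =
      |∫ p in cell k i ×ˢ cell k j, g p.1 p.2| := by
    unfold blk
    rw [abs_mul, abs_of_pos hk]
    field_simp
  rw [h2]
  exact abs_integral_le_integral_abs

end Vale.Agent.Lib.P050.Gr
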