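import Vale.Agent.Lib.P050.Potts

/-!
Homomorphism counts as counts of functions, the multiplied-out Sidorenko property `Sid`
of a host graph, and bridges to Mathlib's `H →g G` and `edgeSet`.
-/

namespace Vale.Agent.Lib.P050

open Classical

variable {V W : Type}

/-- homomorphisms as functions -/
def HomFun (H : SimpleGraph V) (G : SimpleGraph W) : Type :=
  {f : V → W // ∀ a b, H.Adj a b → G.Adj (f a) (f b)}

instance [Finite V] [Finite W] (H : SimpleGraph V) (G : SimpleGraph W) : Finite (HomFun H G) := by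
  unfold HomFun; infer_instance

/-- the bridge to Mathlib homomorphisms -/
def homEquiv (H : SimpleGraph V) (G : SimpleGraph W) : (H →g G) ≃ HomFun H G where
  toFun φ := ⟨φ, fun _ _ h => φ.map_adj h⟩
  invFun f := ⟨f.1, fun {a b} h => f.2 a b h⟩
  left_inv := fun _ => rfl
  right_inv := fun _ => rfl

lemma card_hom (H : SimpleGraph V) (G : SimpleGraph W) :
    Nat.card (H →g G) = Nat.card (HomFun H G) := Nat.card_congr (homEquiv H G)

/-- ordered adjacent pairs -/
def AdjPairs (G : SimpleGraph W) : Type := {p : W × W // G.Adj p.1 p.2}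

instance [Finite W] (G : SimpleGraph W) : Finite (AdjPairs G) := by
  unfold AdjPairs; infer_instance

/-- darts are ordered adjacent pairs -/
def dartEquiv (G : SimpleGraph W) : G.Dart ≃ AdjPairs G where
  toFun d := ⟨d.toProd, d.adj⟩
  invFun p := ⟨p.1, p.2⟩
  left_inv := fun _ => rfl
  right_inv := fun _ => rfl

lemma card_adjPairs [Finite W] (G : SimpleGraph W) :
    Nat.card (AdjPairs G) = 2 * Nat.card G.edgeSet := by
  haveI := Fintype.ofFinite W
  rw [← Nat.card_congr (dartEquiv G), Nat.card_eq_fintype_card,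
    G.dart_card_eq_twice_card_edges, Nat.card_eq_fintype_card, ← Set.toFinset_card]
  rfl

/-- edge density `2 e(G) / v(G)^2`, via ordered adjacent pairs -/
noncomputable def dens (G : SimpleGraph W) : ℝ :=
  (Nat.card (AdjPairs G) : ℝ) / (Nat.card W : ℝ) ^ 2

lemma dens_eq [Finite W] (G : SimpleGraph W) :
    dens G = 2 * (Nat.card G.edgeSet : ℝ) / (Nat.card W : ℝ) ^ 2 := by
  unfold dens
  rw [card_adjPairs]
  push_cast
  ring

lemma dens_nonneg (G : SimpleGraph W) : 0 ≤ dens G := by
  unfold dens; positivity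

lemma dens_le_one [Finite W] (G : SimpleGraph W) : dens G ≤ 1 := by
  unfold dens
  have h : Nat.card (AdjPairs G) ≤ Nat.card (W × W) :=
    Nat.card_le_card_of_injective (fun p : AdjPairs G => p.1) Subtype.val_injective
  rw [Nat.card_prod] at h
  have h' : (Nat.card (AdjPairs G) : ℝ) ≤ (Nat.card W : ℝ) ^ 2 := by
    rw [pow_two]; exact_mod_cast h
  apply div_le_one_of_le₀ h' (by positivity)

/-- The Sidorenko inequality `hom(H,G) ≥ v(G)^{v(H)} p(G)^{e(H)}` for every bipartite `H`. -/
def Sid (G : SimpleGraph W) : Prop :=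
  ∀ (V : Type) [Finite V] (H : SimpleGraph V), H.Colorable 2 →
    (Nat.card W : ℝ) ^ Nat.card V * dens G ^ Nat.card H.edgeSet ≤ (Nat.card (HomFun H G) : ℝ)

/-- the finite set of edges -/
noncomputable def edgeFin [Finite V] (H : SimpleGraph V) : Finset (Sym2 V) :=
  (Set.toFinite H.edgeSet).toFinset

lemma mem_edgeFin [Finite V] (H : SimpleGraph V) (a b : V) : s(a, b) ∈ edgeFin H ↔ H.Adj a b := by
  unfold edgeFin
  rw [Set.Finite.mem_toFinset, SimpleGraph.mem_edgeSet]

lemma card_edgeFin [Finite V] (H : SimpleGraph V) : (edgeFin H).card = Nat.card H.edgeSet := by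
  unfold edgeFin
  rw [Nat.card_coe_set_eq, Set.ncard_eq_toFinset_card _ (Set.toFinite H.edgeSet)]

/-- a two-colouring as a Boolean function that is proper on the edge set -/
lemma exists_bool_proper [Finite V] (H : SimpleGraph V) (hH : H.Colorable 2) :
    ∃ κ : V → Bool, Proper (edgeFin H) κ := by
  obtain ⟨C⟩ := hH
  refine ⟨fun v => decide (C v = 0), ?_⟩
  intro a b hab
  rw [mem_edgeFin] at hab
  have hne := C.valid hab
  intro h
  apply hne
  have h' : (C a = 0) ↔ (C b = 0) := by simpa using h
  have ha : C a = 0 ∨ C a = 1 := by omega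
  have hb : C b = 0 ∨ C b = 1 := by omega
  rcases ha with ha | ha <;> rcases hb with hb | hb
  · rw [ha, hb]
  · exact absurd (h'.mp ha) (by rw [hb]; decide)
  · exact absurd (h'.mpr hb) (by rw [ha]; decide)
  · rw [ha, hb]

end Vale.Agent.Lib.P050
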