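import Vale.Agent.Lib.P050.Hom
import Vale.Agent.Lib.P050.Defs

/-!
The self-join step: if `G` has the Sidorenko property for all bipartite graphs, then so does
the lexicographic product `K_k[G]`.
-/

namespace Vale.Agent.Lib.P050

open Classical

variable {V W : Type}

/-- the spanning subgraph of `H` of the edges on which `ψ` is constant -/
def sameGraph {α : Type} (H : SimpleGraph V) (ψ : V → α) : SimpleGraph V where
  Adj a b := H.Adj a b ∧ ψ a = ψ b
  symm := ⟨fun _ _ h => ⟨h.1.symm, h.2.symm⟩⟩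
  loopless := ⟨fun _ h => H.loopless.irrefl _ h.1⟩

lemma sameGraph_le {α : Type} (H : SimpleGraph V) (ψ : V → α) : sameGraph H ψ ≤ H :=
  fun _ _ h => h.1

lemma card_sameGraph_edges {α : Type} [Finite V] (H : SimpleGraph V) (ψ : V → α) :
    Nat.card (sameGraph H ψ).edgeSet = mono (edgeFin H) ψ := by
  rw [← card_edgeFin]
  unfold mono
  congr 1
  ext e
  induction e using Sym2.ind with
  | _ a b =>
    rw [mem_edgeFin, Finset.mem_filter, mem_edgeFin, Sym2.map_mk, Sym2.mk_isDiag_iff]
    rfl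

/-- homomorphisms into `K_k[G]` -/
def joinEquiv (k : ℕ) (H : SimpleGraph V) (G : SimpleGraph W) :
    HomFun H (selfJoin k G) ≃ Σ ψ : V → Fin k, HomFun (sameGraph H ψ) G where
  toFun f := ⟨fun v => (f.1 v).1, ⟨fun v => (f.1 v).2, fun a b h => by
    have h0 := f.2 a b h.1
    rcases h0 with h1 | h1
    · exact absurd h.2 h1
    · exact h1.2⟩⟩
  invFun g := ⟨fun v => (g.1 v, g.2.1 v), fun a b h => by
    by_cases hab : g.1 a = g.1 b
    · exact Or.inr ⟨hab, g.2.2 a b ⟨h, hab⟩⟩
    · exact Or.inl hab⟩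
  left_inv := fun _ => rfl
  right_inv := fun _ => rfl

lemma card_adjPairs_sum [Fintype W] (G : SimpleGraph W) :
    Nat.card (AdjPairs G) = ∑ x : W, ∑ y : W, if G.Adj x y then 1 else 0 := by
  unfold AdjPairs
  rw [Nat.subtype_card (Finset.univ.filter fun p : W × W => G.Adj p.1 p.2) (by simp),
    Finset.card_filter, Fintype.sum_prod_type]

lemma card_adjPairs_selfJoin [Finite W] (G : SimpleGraph W) (k : ℕ) :
    Nat.card (AdjPairs (selfJoin k G))
      = k * (k - 1) * Nat.card W ^ 2 + k * Nat.card (AdjPairs G) := by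
  haveI := Fintype.ofFinite W
  rw [card_adjPairs_sum, card_adjPairs_sum]
  simp only [Fintype.sum_prod_type]
  have key : ∀ (i : Fin k) (x : W),
      (∑ j : Fin k, ∑ y : W, if (selfJoin k G).Adj (i, x) (j, y) then 1 else 0)
        = (k - 1) * Nat.card W + ∑ y : W, if G.Adj x y then 1 else 0 := by
    intro i x
    have h1 : ∀ j : Fin k, (∑ y : W, if (selfJoin k G).Adj (i, x) (j, y) then 1 else 0)
        = if j = i then (∑ y : W, if G.Adj x y then 1 else 0) else Nat.card W := by
      intro j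
      by_cases hji : j = i
      · subst hji
        simp [selfJoin]
      · have : ∀ y : W, (selfJoin k G).Adj (i, x) (j, y) := fun y => Or.inl (Ne.symm hji)
        simp [this, hji, Nat.card_eq_fintype_card]
    simp_rw [h1]
    rw [Finset.sum_ite, Finset.sum_const, Finset.sum_const]
    have hc1 : (Finset.univ.filter fun j : Fin k => j = i).card = 1 := by
      rw [Finset.filter_eq' Finset.univ i]; simp
    have hc2 : (Finset.univ.filter fun j : Fin k => ¬ j = i).card = k - 1 := by
      rw [Finset.filter_ne' Finset.univ i]; simp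
    rw [hc1, hc2]
    simp only [smul_eq_mul, one_mul]
    ring
  simp_rw [key]
  rw [Finset.sum_const, Finset.card_univ, Fintype.card_fin, Finset.sum_add_distrib,
    Finset.sum_const, Finset.card_univ, ← Nat.card_eq_fintype_card]
  simp only [smul_eq_mul]
  ring

lemma dens_selfJoin [Finite W] [Nonempty W] (G : SimpleGraph W) (k : ℕ) (hk : 1 ≤ k) :
    dens (selfJoin k G) = ((k : ℝ) - 1 + dens G) / k := by
  unfold dens
  rw [card_adjPairs_selfJoin, Nat.card_prod, Nat.card_fin]
  have hn : (0 : ℝ) < (Nat.card W : ℝ) := by exact_mod_cast Nat.card_pos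
  have hk' : (0 : ℝ) < (k : ℝ) := by exact_mod_cast hk
  push_cast [Nat.cast_sub hk]
  field_simp

theorem sid_selfJoin [Finite W] [Nonempty W] (G : SimpleGraph W) (hG : Sid G)
    (k : ℕ) (hk : 1 ≤ k) : Sid (selfJoin k G) := by
  intro V _ H hH
  haveI := Fintype.ofFinite V
  obtain ⟨κ, hκ⟩ := exists_bool_proper H hH
  rw [Nat.card_congr (joinEquiv k H G), Nat.card_sigma]
  have hterm : ∀ ψ : V → Fin k,
      (Nat.card W : ℝ) ^ Nat.card V * dens G ^ mono (edgeFin H) ψ
        ≤ (Nat.card (HomFun (sameGraph H ψ) G) : ℝ) := by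
    intro ψ
    have h := hG V (sameGraph H ψ) (hH.mono_left (sameGraph_le H ψ))
    rwa [card_sameGraph_edges] at h
  have hp := potts_bound κ (edgeFin H) hκ k hk (dens G) (dens_nonneg G) (dens_le_one G)
  rw [card_edgeFin, ← Nat.card_eq_fintype_card] at hp
  have hn : (0 : ℝ) < (Nat.card W : ℝ) := by exact_mod_cast Nat.card_pos
  have hk' : (0 : ℝ) < (k : ℝ) := by exact_mod_cast hk
  rw [dens_selfJoin G k hk, Nat.card_prod, Nat.card_fin]
  push_cast
  calc ((k : ℝ) * (Nat.card W : ℝ)) ^ Nat.card V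
        * (((k : ℝ) - 1 + dens G) / k) ^ Nat.card H.edgeSet
      = (Nat.card W : ℝ) ^ Nat.card V
          * (((k : ℝ) ^ Nat.card V * ((k : ℝ) - 1 + dens G) ^ Nat.card H.edgeSet)
            / (k : ℝ) ^ Nat.card H.edgeSet) := by
        rw [mul_pow, div_pow]; ring
    _ ≤ (Nat.card W : ℝ) ^ Nat.card V * ∑ ψ : V → Fin k, dens G ^ mono (edgeFin H) ψ := by
        apply mul_le_mul_of_nonneg_left _ (by positivity)
        rw [div_le_iff₀ (by positivity)]
        linarith [hp]
    _ = ∑ ψ : V → Fin k, (Nat.card W : ℝ) ^ Nat.card V * dens G ^ mono (edgeFin H) ψ := by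
        rw [Finset.mul_sum]
    _ ≤ ∑ ψ : V → Fin k, (Nat.card (HomFun (sameGraph H ψ) G) : ℝ) :=
        Finset.sum_le_sum (fun ψ _ => hterm ψ)

end Vale.Agent.Lib.P050
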