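import Mathlib

/-!
Kempe-chain switching: for a bipartite edge set, the number of proper `q`-colourings
is at least `q^v ((q-1)/q)^e` (the Csikvari-Lin inequality).  Edge sets are finsets of
unordered pairs of vertices.
-/

namespace Vale.Agent.Lib.P050

open Classical

variable {V : Type} {q : ℕ}

/-- `c` is proper on the edge set `F`. -/
def Proper {α : Type} (F : Finset (Sym2 V)) (c : V → α) : Prop :=
  ∀ a b, s(a, b) ∈ F → c a ≠ c b

/-- the two-colour relation used for Kempe chains -/
def KRel (F : Finset (Sym2 V)) (c : V → Fin q) (i j : Fin q) (a b : V) : Prop :=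
  s(a, b) ∈ F ∧ (c a = i ∨ c a = j) ∧ (c b = i ∨ c b = j)

/-- the Kempe chain of `u` -/
def KReach (F : Finset (Sym2 V)) (c : V → Fin q) (i j : Fin q) (u x : V) : Prop :=
  Relation.ReflTransGen (KRel F c i j) u x

/-- switch the colours `i`, `j` on the Kempe chain of `u`. -/
noncomputable def kempe (F : Finset (Sym2 V)) (c : V → Fin q) (i j : Fin q) (u : V) : V → Fin q :=
  fun x => if KReach F c i j u x then Equiv.swap i j (c x) else c x

lemma swap_mem {i j a : Fin q} (h : a = i ∨ a = j) :
    Equiv.swap i j a = i ∨ Equiv.swap i j a = j := by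
  rcases h with rfl | rfl
  · right; simp
  · left; simp

lemma swap_not_mem {i j a : Fin q} (h : ¬ (a = i ∨ a = j)) : Equiv.swap i j a = a := by
  exact Equiv.swap_apply_of_ne_of_ne (fun h1 => h (Or.inl h1)) (fun h2 => h (Or.inr h2))

lemma KReach.mem {F : Finset (Sym2 V)} {c : V → Fin q} {i j : Fin q} {u x : V}
    (h : KReach F c i j u x) (hu : c u = i ∨ c u = j) : c x = i ∨ c x = j := by
  induction h with
  | refl => exact hu
  | tail _ hr _ => exact hr.2.2

lemma kempe_mem_iff (F : Finset (Sym2 V)) (c : V → Fin q) (i j : Fin q) (u : V)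
    (hu : c u = i ∨ c u = j) (x : V) :
    (kempe F c i j u x = i ∨ kempe F c i j u x = j) ↔ (c x = i ∨ c x = j) := by
  unfold kempe
  by_cases hK : KReach F c i j u x
  · have hx := hK.mem hu
    simp only [hK, if_true]
    exact ⟨fun _ => hx, fun _ => swap_mem hx⟩
  · simp only [hK, if_false]

lemma kempe_KRel (F : Finset (Sym2 V)) (c : V → Fin q) (i j : Fin q) (u : V)
    (hu : c u = i ∨ c u = j) :
    KRel F (kempe F c i j u) i j = KRel F c i j := by
  funext a b
  unfold KRel
  rw [kempe_mem_iff F c i j u hu a, kempe_mem_iff F c i j u hu b]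

lemma kempe_KReach (F : Finset (Sym2 V)) (c : V → Fin q) (i j : Fin q) (u : V)
    (hu : c u = i ∨ c u = j) :
    KReach F (kempe F c i j u) i j = KReach F c i j := by
  unfold KReach
  rw [kempe_KRel F c i j u hu]

lemma kempe_kempe (F : Finset (Sym2 V)) (c : V → Fin q) (i j : Fin q) (u : V)
    (hu : c u = i ∨ c u = j) :
    kempe F (kempe F c i j u) i j u = c := by
  funext x
  have h1 := kempe_KReach F c i j u hu
  unfold kempe at h1 ⊢
  rw [h1]
  by_cases hK : KReach F c i j u x
  · simp [hK]
  · simp [hK]

lemma kempe_proper (F : Finset (Sym2 V)) (c : V → Fin q) (i j : Fin q) (u : V)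
    (hu : c u = i ∨ c u = j) (hc : Proper F c) : Proper F (kempe F c i j u) := by
  intro a b hab
  have hne := hc a b hab
  unfold kempe
  by_cases ha : KReach F c i j u a <;> by_cases hb : KReach F c i j u b
  · simp only [ha, hb, if_true]
    intro h
    exact hne ((Equiv.swap i j).injective h)
  · simp only [ha, hb, if_true, if_false]
    have hca := ha.mem hu
    have hcb : ¬ (c b = i ∨ c b = j) := by
      intro hcb
      exact hb (Relation.ReflTransGen.tail ha ⟨hab, hca, hcb⟩)
    intro h
    exact hcb (h ▸ swap_mem hca)
  · simp only [ha, hb, if_true, if_false]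
    have hcb := hb.mem hu
    have hca : ¬ (c a = i ∨ c a = j) := by
      intro hca
      exact ha (Relation.ReflTransGen.tail hb ⟨by rw [Sym2.eq_swap]; exact hab, hcb, hca⟩)
    intro h
    exact hca (h ▸ swap_mem hcb)
  · simp only [ha, hb, if_false]
    exact hne

/-- parity along a Kempe chain in a bipartite graph -/
lemma KReach.parity {F : Finset (Sym2 V)} {c : V → Fin q} {i j : Fin q} {u x : V}
    (κ : V → Bool) (hκ : Proper F κ) (hc : Proper F c) (hu : c u = i)
    (h : KReach F c i j u x) : (c x = i ↔ κ x = κ u) := by
  induction h with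
  | refl => simp [hu]
  | tail hab hr ih =>
    rename_i a b
    obtain ⟨hF, ha, hb⟩ := hr
    have h1 := hc a b hF
    have h2 := hκ a b hF
    constructor
    · intro hbi
      have hai : ¬ c a = i := fun hai => h1 (hai.trans hbi.symm)
      have : ¬ κ a = κ u := fun hk => hai (ih.mpr hk)
      cases hka : κ a <;> cases hkb : κ b <;> cases hku : κ u <;> simp_all
    · intro hbk
      have : ¬ κ a = κ u := by
        intro hk
        exact h2 (hk.trans hbk.symm)
      have hai : ¬ c a = i := fun hai => this (ih.mp hai)
      rcases ha with ha | ha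
      · exact absurd ha hai
      · rcases hb with hb | hb
        · exact hb
        · exact absurd (ha.trans hb.symm) h1

lemma kempe_apply_u (F : Finset (Sym2 V)) (c : V → Fin q) (i j : Fin q) (u : V) (hu : c u = i) :
    kempe F c i j u u = j := by
  unfold kempe
  have : KReach F c i j u u := Relation.ReflTransGen.refl
  simp [this, hu]

lemma kempe_apply_v (F : Finset (Sym2 V)) (c : V → Fin q) (i j : Fin q) (u v : V)
    (κ : V → Bool) (hκ : Proper F κ) (hc : Proper F c) (hu : c u = i)
    (hv : c v = i) (huv : κ u ≠ κ v) :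
    kempe F c i j u v = i := by
  unfold kempe
  have : ¬ KReach F c i j u v := by
    intro h
    exact huv ((h.parity κ hκ hc hu).mp hv).symm
  simp [this, hv]

/-- The Kempe inequality: colourings agreeing at `u`, `v` are at most a `1/(q-1)`
fraction of those disagreeing, when `u` and `v` lie on opposite sides. -/
lemma kempe_count [Fintype V] (F : Finset (Sym2 V)) (κ : V → Bool) (hκ : Proper F κ)
    (u v : V) (huv : κ u ≠ κ v) :
    (Finset.univ.filter (fun c : V → Fin q => Proper F c ∧ c u = c v)).card * (q - 1)
      ≤ (Finset.univ.filter (fun c : V → Fin q => Proper F c ∧ c u ≠ c v)).card * 1 := by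
  apply Finset.card_mul_le_card_mul
    (fun c c' : V → Fin q => ∃ j, j ≠ c u ∧ c' = kempe F c (c u) j u)
  · intro c hc
    simp only [Finset.mem_filter, Finset.mem_univ, true_and] at hc
    obtain ⟨hc, hcuv⟩ := hc
    have hinj : Function.Injective (fun j : {j : Fin q // j ≠ c u} => kempe F c (c u) j.1 u) := by
      intro j1 j2 h
      have h' := congrFun h u
      simp only [kempe_apply_u F c (c u) _ u rfl] at h'
      exact Subtype.ext h'
    have hcard : Fintype.card {j : Fin q // j ≠ c u} = q - 1 := by
      rw [Fintype.card_subtype_compl, Fintype.card_fin]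
      simp
    rw [← hcard, ← Finset.card_univ, ← Finset.card_image_of_injective _ hinj]
    apply Finset.card_le_card
    intro c' hc'
    simp only [Finset.mem_image, Finset.mem_univ, true_and] at hc'
    obtain ⟨⟨j, hj⟩, rfl⟩ := hc'
    simp only [Finset.bipartiteAbove, Finset.mem_filter, Finset.mem_univ, true_and]
    refine ⟨⟨kempe_proper F c (c u) j u (Or.inl rfl) hc, ?_⟩, j, hj, rfl⟩
    rw [kempe_apply_u F c (c u) j u rfl,
      kempe_apply_v F c (c u) j u v κ hκ hc rfl hcuv.symm huv]
    exact hj
  · intro c' _
    rw [Finset.card_le_one]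
    intro c1 h1 c2 h2
    simp only [Finset.bipartiteBelow, Finset.mem_filter, Finset.mem_univ, true_and] at h1 h2
    obtain ⟨⟨hc1, hc1uv⟩, j1, hj1, e1⟩ := h1
    obtain ⟨⟨hc2, hc2uv⟩, j2, hj2, e2⟩ := h2
    have hu1 : c' u = j1 := by rw [e1, kempe_apply_u F c1 (c1 u) j1 u rfl]
    have hu2 : c' u = j2 := by rw [e2, kempe_apply_u F c2 (c2 u) j2 u rfl]
    have hv1 : c' v = c1 u := by
      rw [e1, kempe_apply_v F c1 (c1 u) j1 u v κ hκ hc1 rfl hc1uv.symm huv]
    have hv2 : c' v = c2 u := by
      rw [e2, kempe_apply_v F c2 (c2 u) j2 u v κ hκ hc2 rfl hc2uv.symm huv]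
    have hj : j1 = j2 := hu1.symm.trans hu2
    have hi : c1 u = c2 u := hv1.symm.trans hv2
    have k1 := kempe_kempe F c1 (c1 u) j1 u (Or.inl rfl)
    have k2 := kempe_kempe F c2 (c2 u) j2 u (Or.inl rfl)
    rw [← e1] at k1
    rw [← e2] at k2
    rw [← k1, ← k2, hj, hi]

/-- The Csikvari-Lin inequality for `q`-colourings of a bipartite edge set. -/
theorem proper_count [Fintype V] (κ : V → Bool) (F : Finset (Sym2 V)) (hκ : Proper F κ) :
    (q - 1) ^ F.card * q ^ Fintype.card V
      ≤ q ^ F.card * (Finset.univ.filter (fun c : V → Fin q => Proper F c)).card := by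
  induction F using Finset.induction_on with
  | empty =>
    have : (Finset.univ.filter (fun c : V → Fin q => Proper (∅ : Finset (Sym2 V)) c))
        = Finset.univ := by
      apply Finset.filter_true_of_mem
      intro c _ a b h
      simp at h
    rw [this]
    simp
  | insert e F he ih =>
    have hκF : Proper F κ := fun a b h => hκ a b (Finset.mem_insert_of_mem h)
    have ih' := ih hκF
    rw [Finset.card_insert_of_notMem he]
    induction e using Sym2.ind with
    | _ u v =>
    have huv : κ u ≠ κ v := hκ u v (Finset.mem_insert_self _ _)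
    rcases Nat.eq_zero_or_pos q with hq | hq
    · subst hq
      haveI : Nonempty V := ⟨u⟩
      have hV : Fintype.card V ≠ 0 := Fintype.card_ne_zero
      simp [hV]
    have hk := kempe_count (q := q) F κ hκF u v huv
    set A := (Finset.univ.filter (fun c : V → Fin q => Proper F c ∧ c u = c v)).card with hA
    set B := (Finset.univ.filter (fun c : V → Fin q => Proper F c ∧ c u ≠ c v)).card with hB
    have hsplit : (Finset.univ.filter (fun c : V → Fin q => Proper F c)).card = A + B := by
      rw [hA, hB, ← Finset.card_union_of_disjoint]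
      · congr 1
        ext c
        simp only [Finset.mem_filter, Finset.mem_univ, true_and, Finset.mem_union]
        tauto
      · rw [Finset.disjoint_left]
        intro c h1 h2
        simp only [Finset.mem_filter, Finset.mem_univ, true_and] at h1 h2
        exact h2.2 h1.2
    have hins : (Finset.univ.filter (fun c : V → Fin q => Proper (insert s(u, v) F) c)).card
        = B := by
      rw [hB]
      congr 1
      ext c
      simp only [Finset.mem_filter, Finset.mem_univ, true_and]
      constructor
      · intro h
        exact ⟨fun a b hab => h a b (Finset.mem_insert_of_mem hab),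
          h u v (Finset.mem_insert_self _ _)⟩
      · rintro ⟨h1, h2⟩ a b hab
        rw [Finset.mem_insert] at hab
        rcases hab with hab | hab
        · rw [Sym2.eq_iff] at hab
          rcases hab with ⟨rfl, rfl⟩ | ⟨rfl, rfl⟩
          · exact h2
          · exact Ne.symm h2
        · exact h1 a b hab
    rw [hins]
    rw [hsplit] at ih'
    rw [mul_one] at hk
    calc (q - 1) ^ (F.card + 1) * q ^ Fintype.card V
        = (q - 1) * ((q - 1) ^ F.card * q ^ Fintype.card V) := by ring
      _ ≤ (q - 1) * (q ^ F.card * (A + B)) := Nat.mul_le_mul_left _ ih'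
      _ = q ^ F.card * (A * (q - 1) + (q - 1) * B) := by ring
      _ ≤ q ^ F.card * (B + (q - 1) * B) := by
          apply Nat.mul_le_mul_left
          exact Nat.add_le_add_right hk _
      _ ≤ q ^ F.card * (q * B) := by
          apply Nat.mul_le_mul_left
          have : q = (q - 1) + 1 := by omega
          nlinarith [this]
      _ = q ^ (F.card + 1) * B := by ring

end Vale.Agent.Lib.P050
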