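import Mathlib

set_option linter.unusedSectionVars false

namespace Vale.Agent.Lib.P050.Loc

/-- average of a real function over a finite type -/
noncomputable def avg {α : Type} [Fintype α] (f : α → ℝ) : ℝ := (∑ a, f a) / Fintype.card α

section basic

variable {α β : Type} [Fintype α] [Fintype β]

lemma avg_congr {f g : α → ℝ} (h : ∀ a, f a = g a) : avg f = avg g := by
  unfold avg
  rw [Finset.sum_congr rfl fun a _ => h a]

lemma avg_const [Nonempty α] (c : ℝ) : avg (fun _ : α => c) = c := by
  unfold avg
  rw [Finset.sum_const, Finset.card_univ, nsmul_eq_mul]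
  have : (Fintype.card α : ℝ) ≠ 0 := by
    exact_mod_cast Fintype.card_ne_zero
  field_simp

lemma avg_add (f g : α → ℝ) : avg (fun a => f a + g a) = avg f + avg g := by
  unfold avg
  rw [Finset.sum_add_distrib, add_div]

lemma avg_mul_left (c : ℝ) (f : α → ℝ) : avg (fun a => c * f a) = c * avg f := by
  unfold avg
  rw [← Finset.mul_sum, mul_div_assoc]

lemma avg_mul_right (f : α → ℝ) (c : ℝ) : avg (fun a => f a * c) = avg f * c := by
  unfold avg
  rw [← Finset.sum_mul]
  ring

lemma avg_finset_sum {ι : Type} (S : Finset ι) (f : ι → α → ℝ) :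
    avg (fun a => ∑ i ∈ S, f i a) = ∑ i ∈ S, avg (f i) := by
  unfold avg
  rw [Finset.sum_comm, Finset.sum_div]

lemma avg_mono {f g : α → ℝ} (h : ∀ a, f a ≤ g a) : avg f ≤ avg g := by
  unfold avg
  exact div_le_div_of_nonneg_right (Finset.sum_le_sum fun a _ => h a) (Nat.cast_nonneg _)

lemma avg_nonneg {f : α → ℝ} (h : ∀ a, 0 ≤ f a) : 0 ≤ avg f := by
  unfold avg
  exact div_nonneg (Finset.sum_nonneg fun a _ => h a) (Nat.cast_nonneg _)

lemma abs_avg_le (f : α → ℝ) : |avg f| ≤ avg (fun a => |f a|) := by
  unfold avg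
  rw [abs_div, abs_of_nonneg (Nat.cast_nonneg (Fintype.card α) : (0 : ℝ) ≤ _)]
  exact div_le_div_of_nonneg_right (Finset.abs_sum_le_sum_abs _ _) (Nat.cast_nonneg _)

lemma avg_comm (f : α → β → ℝ) :
    avg (fun a => avg (fun b => f a b)) = avg (fun b => avg (fun a => f a b)) := by
  unfold avg
  rw [← Finset.sum_div, ← Finset.sum_div, Finset.sum_comm]
  ring

end basic

section resample

variable {V Ω : Type} [Fintype V] [DecidableEq V] [Fintype Ω] [DecidableEq Ω]

/-- resampling one coordinate does not change the average -/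
lemma resample1 [Nonempty Ω] (v : V) (g : (V → Ω) → ℝ) :
    avg g = avg (fun φ => avg (fun a => g (Function.update φ v a))) := by
  have hN : (Fintype.card Ω : ℝ) ≠ 0 := by exact_mod_cast Fintype.card_ne_zero
  have key : ∑ φ : V → Ω, ∑ a : Ω, g (Function.update φ v a)
      = (Fintype.card Ω : ℝ) * ∑ φ : V → Ω, g φ := by
    let e : (V → Ω) × Ω → (V → Ω) × Ω := fun p => (Function.update p.1 v p.2, p.1 v)
    have he : Function.Involutive e := by
      intro p
      simp [e]
    have h1 := Equiv.sum_comp (he.toPerm) (fun p : (V → Ω) × Ω => g p.1)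
    rw [Fintype.sum_prod_type, Fintype.sum_prod_type] at h1
    have h2 : ∀ φ : V → Ω, ∀ a : Ω, g ((he.toPerm) (φ, a)).1 = g (Function.update φ v a) :=
      fun φ a => rfl
    rw [Finset.sum_congr rfl (fun φ _ => Finset.sum_congr rfl (fun a _ => h2 φ a))] at h1
    rw [h1, Finset.mul_sum]
    refine Finset.sum_congr rfl fun φ _ => ?_
    simp only [Finset.sum_const, Finset.card_univ, nsmul_eq_mul]
  unfold avg
  rw [← Finset.sum_div, key, mul_div_cancel_left₀ _ hN]

/-- resampling the coordinates in the range of an injective map -/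
lemma resampleC [Nonempty Ω] {ι : Type} [Fintype ι] [DecidableEq ι] (c : ι → V)
    (hc : Function.Injective c) (g : (V → Ω) → ℝ) :
    avg g = avg (fun φ => avg (fun x : ι → Ω => g (Function.extend c x φ))) := by
  have hN : (Fintype.card (ι → Ω) : ℝ) ≠ 0 := by exact_mod_cast Fintype.card_ne_zero
  have key : ∑ φ : V → Ω, ∑ x : ι → Ω, g (Function.extend c x φ)
      = (Fintype.card (ι → Ω) : ℝ) * ∑ φ : V → Ω, g φ := by
    let e : (V → Ω) × (ι → Ω) → (V → Ω) × (ι → Ω) :=
      fun p => (Function.extend c p.2 p.1, p.1 ∘ c)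
    have he : Function.Involutive e := by
      intro p
      refine Prod.ext ?_ ?_
      · show Function.extend c (p.1 ∘ c) (Function.extend c p.2 p.1) = p.1
        funext w
        by_cases h : ∃ a, c a = w
        · obtain ⟨a, rfl⟩ := h
          rw [hc.extend_apply]
          rfl
        · rw [Function.extend_apply' _ _ _ h, Function.extend_apply' _ _ _ h]
      · show Function.extend c p.2 p.1 ∘ c = p.2
        funext a
        simp only [Function.comp]
        rw [hc.extend_apply]
    have h1 := Equiv.sum_comp (he.toPerm) (fun p : (V → Ω) × (ι → Ω) => g p.1)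
    rw [Fintype.sum_prod_type, Fintype.sum_prod_type] at h1
    have h2 : ∀ φ : V → Ω, ∀ x : ι → Ω, g ((he.toPerm) (φ, x)).1 = g (Function.extend c x φ) :=
      fun φ x => rfl
    rw [Finset.sum_congr rfl (fun φ _ => Finset.sum_congr rfl (fun a _ => h2 φ a))] at h1
    rw [h1, Finset.mul_sum]
    refine Finset.sum_congr rfl fun φ _ => ?_
    simp only [Finset.sum_const, Finset.card_univ, nsmul_eq_mul]
  unfold avg
  rw [← Finset.sum_div, key, mul_div_cancel_left₀ _ hN]

/-- the average of a function of one coordinate -/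
lemma avg_coord [Nonempty Ω] (u : V) (h : Ω → ℝ) :
    avg (fun φ : V → Ω => h (φ u)) = avg h := by
  rw [resample1 u]
  simp only [Function.update_self]
  exact avg_const _

end resample

end Vale.Agent.Lib.P050.Loc
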