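import Vale.Agent.Lib.P050.LocTrace

set_option linter.unusedSectionVars false

namespace Vale.Agent.Lib.P050.Loc

open Matrix

variable {Ω : Type} [Fintype Ω] [DecidableEq Ω]

/-- orthogonal diagonalisation of a real symmetric matrix -/
theorem spectral_real (U : Matrix Ω Ω ℝ) (hU : Uᵀ = U) :
    ∃ (V : Matrix Ω Ω ℝ) (lam : Ω → ℝ), Vᵀ * V = 1 ∧ V * Vᵀ = 1 ∧
      U = V * diagonal lam * Vᵀ := by
  have hA : U.IsHermitian := by
    unfold Matrix.IsHermitian
    rw [conjTranspose_eq_transpose_of_trivial, hU]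
  refine ⟨(hA.eigenvectorUnitary : Matrix Ω Ω ℝ), hA.eigenvalues, ?_, ?_, ?_⟩
  · have := Unitary.coe_star_mul_self hA.eigenvectorUnitary
    rwa [star_eq_conjTranspose, conjTranspose_eq_transpose_of_trivial] at this
  · have := Unitary.coe_mul_star_self hA.eigenvectorUnitary
    rwa [Unitary.coe_star, star_eq_conjTranspose, conjTranspose_eq_transpose_of_trivial] at this
  · have h := hA.spectral_theorem
    rw [Unitary.conjStarAlgAut_apply] at h
    rw [star_eq_conjTranspose, conjTranspose_eq_transpose_of_trivial] at h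
    have e : (RCLike.ofReal ∘ hA.eigenvalues : Ω → ℝ) = hA.eigenvalues := by
      funext i; simp
    rw [e] at h
    exact h

lemma conj_prod {V : Matrix Ω Ω ℝ} (h : Vᵀ * V = 1) (h' : V * Vᵀ = 1)
    (l : List (Matrix Ω Ω ℝ)) : (l.map fun X => V * X * Vᵀ).prod = V * l.prod * Vᵀ := by
  induction l with
  | nil => simp [h']
  | cons X l ih =>
    rw [List.map_cons, List.prod_cons, List.prod_cons, ih]
    calc V * X * Vᵀ * (V * l.prod * Vᵀ) = V * X * (Vᵀ * V) * l.prod * Vᵀ := by
          simp only [mul_assoc]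
      _ = V * (X * l.prod) * Vᵀ := by rw [h, mul_one]; simp only [mul_assoc]

lemma trace_conj {V : Matrix Ω Ω ℝ} (h : Vᵀ * V = 1) (P : Matrix Ω Ω ℝ) :
    trace (V * P * Vᵀ) = trace P := by
  rw [trace_mul_comm, ← mul_assoc, h, one_mul]


/-- weighted cycle inequality, matrix form -/
theorem wci_matrix (U : Matrix Ω Ω ℝ) (hU : Uᵀ = U) {n : ℕ} (hn : Even n)
    (g : Fin n → Ω → ℝ) (b : Fin n → ℝ) (hb : ∀ i, 0 ≤ b i) (hg : ∀ i a, |g i a| ≤ b i) :
    |trace ((List.ofFn fun i => diagonal (g i) * U).prod)|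
      ≤ (∏ i, b i) * trace ((List.ofFn fun _ : Fin n => U).prod) := by
  obtain ⟨V, lam, h1, h2, hdec⟩ := spectral_real U hU
  set ℓ : Ω → ℝ := fun k => |lam k| with hℓ
  set sg : Ω → ℝ := fun k => if 0 ≤ lam k then 1 else -1 with hsg
  have hlam : diagonal sg * diagonal ℓ = diagonal lam := by
    rw [diagonal_mul_diagonal]
    congr 1
    funext k
    simp only [hsg, hℓ]
    split_ifs with h
    · rw [abs_of_nonneg h, one_mul]
    · rw [abs_of_neg (not_le.1 h)]; ring
  set M : Fin n → Matrix Ω Ω ℝ := fun i => Vᵀ * diagonal (g i) * V * diagonal sg with hM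
  have hVT : IsBdd Vᵀ 1 := isBdd_of_orth (by rw [transpose_transpose]; exact h2)
  have hV : IsBdd V 1 := isBdd_of_orth h1
  have hsgb : IsBdd (diagonal sg) 1 := isBdd_diagonal zero_le_one (by
    intro k
    simp only [hsg]
    split_ifs <;> simp)
  have hMb : ∀ i, IsBdd (M i) (b i) := by
    intro i
    have := isBdd_mul (isBdd_mul (isBdd_mul hVT (isBdd_diagonal (hb i) (hg i))) hV) hsgb
    simpa using this
  have hconj : ∀ i, diagonal (g i) * U = V * (M i * diagonal ℓ) * Vᵀ := by
    intro i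
    simp only [hM]
    rw [mul_assoc (Vᵀ * diagonal (g i) * V), hlam]
    calc diagonal (g i) * U = (V * Vᵀ) * diagonal (g i) * (V * diagonal lam * Vᵀ) := by
          rw [h2, one_mul, ← hdec]
      _ = V * (Vᵀ * diagonal (g i) * V * diagonal lam) * Vᵀ := by simp only [mul_assoc]
  have e1 : (List.ofFn fun i => diagonal (g i) * U)
      = (List.ofFn fun i => M i * diagonal ℓ).map fun X => V * X * Vᵀ := by
    rw [List.map_ofFn]
    congr 1
    funext i
    exact hconj i
  have hTH := trace_holder ℓ (fun k => abs_nonneg _) M b hMb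
  rw [e1, conj_prod h1 h2, trace_conj h1]
  have e2 : (List.ofFn fun _ : Fin n => U)
      = (List.ofFn fun _ : Fin n => diagonal lam).map fun X => V * X * Vᵀ := by
    rw [List.map_ofFn]
    congr 1
    funext i
    simp only [Function.comp]
    exact hdec
  have e3 : trace ((List.ofFn fun _ : Fin n => U).prod) = ∑ k, ℓ k ^ n := by
    rw [e2, conj_prod h1 h2, trace_conj h1, List.ofFn_const, List.prod_replicate,
      diagonal_pow, trace_diagonal]
    refine Finset.sum_congr rfl fun k _ => ?_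
    simp only [hℓ, Pi.pow_apply]
    exact (hn.pow_abs _).symm
  rw [e3]
  exact hTH

/-- sums over open walks are entries of matrix products -/
lemma open_walk : ∀ (k : ℕ) (B : Fin k → Matrix Ω Ω ℝ) (f : Ω → Ω → ℝ),
    ∑ x : Fin (k + 1) → Ω, f (x 0) (x (Fin.last k)) * ∏ i : Fin k, B i (x i.castSucc) (x i.succ)
      = ∑ a, ∑ c, f a c * (List.ofFn B).prod a c := by
  intro k
  induction k with
  | zero =>
    intro B f
    rw [← (Equiv.funUnique (Fin 1) Ω).symm.sum_comp]
    simp [Matrix.one_apply]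
  | succ k ih =>
    intro B f
    rw [← (Fin.consEquiv fun _ : Fin (k + 2) => Ω).sum_comp, Fintype.sum_prod_type]
    refine Finset.sum_congr rfl fun a _ => ?_
    have step : ∀ y : Fin (k + 1) → Ω,
        f ((Fin.consEquiv fun _ : Fin (k + 2) => Ω) (a, y) 0)
            ((Fin.consEquiv fun _ : Fin (k + 2) => Ω) (a, y) (Fin.last (k + 1)))
          * ∏ i : Fin (k + 1), B i ((Fin.consEquiv fun _ : Fin (k + 2) => Ω) (a, y) i.castSucc)
              ((Fin.consEquiv fun _ : Fin (k + 2) => Ω) (a, y) i.succ)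
        = (f a (y (Fin.last k)) * B 0 a (y 0))
          * ∏ i : Fin k, B i.succ (y i.castSucc) (y i.succ) := by
      intro y
      rw [Fin.prod_univ_succ]
      simp only [Fin.consEquiv_apply, Fin.cons_zero, Fin.cons_succ, Fin.castSucc_zero,
        ← Fin.succ_last, ← Fin.succ_castSucc]
      ring
    rw [Finset.sum_congr rfl (fun y _ => step y)]
    rw [ih (fun i => B i.succ) (fun b c => f a c * B 0 a b)]
    rw [List.ofFn_succ, List.prod_cons, Finset.sum_comm]
    refine Finset.sum_congr rfl fun c _ => ?_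
    rw [Matrix.mul_apply, Finset.mul_sum]
    refine Finset.sum_congr rfl fun b _ => ?_
    ring

/-- sums over closed walks are traces of matrix products -/
lemma closed_walk (k : ℕ) (A : Fin (k + 1) → Matrix Ω Ω ℝ) :
    ∑ x : Fin (k + 1) → Ω, ∏ i : Fin (k + 1), A i (x i) (x (i + 1))
      = trace ((List.ofFn A).prod) := by
  have h := open_walk k (fun i => A i.castSucc) (fun a c => A (Fin.last k) c a)
  have e : ∀ x : Fin (k + 1) → Ω, ∏ i : Fin (k + 1), A i (x i) (x (i + 1))
      = A (Fin.last k) (x (Fin.last k)) (x 0)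
        * ∏ i : Fin k, A i.castSucc (x i.castSucc) (x i.succ) := by
    intro x
    rw [Fin.prod_univ_castSucc, mul_comm]
    simp only [Fin.coeSucc_eq_succ, Fin.last_add_one]
  rw [Finset.sum_congr rfl (fun x _ => e x), h, List.ofFn_succ', List.concat_eq_append,
    List.prod_append, List.prod_singleton, trace]
  simp only [diag_apply, Matrix.mul_apply]
  refine Finset.sum_congr rfl fun a _ => Finset.sum_congr rfl fun c _ => ?_
  ring


/-- weighted cycle inequality: vertex weights bounded by `b i` cost at most `∏ b i` -/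
theorem wci {k : ℕ} (hk : Even (k + 1)) (Kf : Sym2 Ω → ℝ) (g : Fin (k + 1) → Ω → ℝ)
    (b : Fin (k + 1) → ℝ) (hb : ∀ i, 0 ≤ b i) (hg : ∀ i a, |g i a| ≤ b i) :
    |∑ x : Fin (k + 1) → Ω, ∏ i : Fin (k + 1), (g i (x i) * Kf s(x i, x (i + 1)))|
      ≤ (∏ i, b i) * ∑ x : Fin (k + 1) → Ω, ∏ i : Fin (k + 1), Kf s(x i, x (i + 1)) := by
  set U : Matrix Ω Ω ℝ := Matrix.of fun a c => Kf s(a, c) with hU
  have hUT : Uᵀ = U := by
    ext a c
    simp only [hU, transpose_apply, of_apply]
    rw [Sym2.eq_swap]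
  have h1 := closed_walk k (fun i => diagonal (g i) * U)
  have h2 := closed_walk k (fun _ : Fin (k + 1) => U)
  have e1 : ∀ x : Fin (k + 1) → Ω, ∏ i : Fin (k + 1), (g i (x i) * Kf s(x i, x (i + 1)))
      = ∏ i : Fin (k + 1), (diagonal (g i) * U) (x i) (x (i + 1)) := by
    intro x
    refine Finset.prod_congr rfl fun i _ => ?_
    rw [diagonal_mul]
    rfl
  have e2 : ∀ x : Fin (k + 1) → Ω, ∏ i : Fin (k + 1), Kf s(x i, x (i + 1))
      = ∏ i : Fin (k + 1), U (x i) (x (i + 1)) := by
    intro x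
    rfl
  rw [Finset.sum_congr rfl (fun x _ => e1 x), Finset.sum_congr rfl (fun x _ => e2 x), h1, h2]
  exact wci_matrix U hUT hk g b hb hg

/-- closed walks of even length have nonnegative total weight -/
theorem cyc_nonneg {k : ℕ} (hk : Even (k + 1)) (Kf : Sym2 Ω → ℝ) :
    0 ≤ ∑ x : Fin (k + 1) → Ω, ∏ i : Fin (k + 1), Kf s(x i, x (i + 1)) := by
  have h := wci hk Kf (fun _ _ => 1) (fun _ => 1) (fun _ => zero_le_one) (fun _ _ => by simp)
  simp only [one_mul, Finset.prod_const_one] at h
  exact le_trans (abs_nonneg _) h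

end Vale.Agent.Lib.P050.Loc
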