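import Vale.Agent.Lib.P050.LocLeaf
import Vale.Agent.Lib.P050.LocSpec

set_option linter.unusedSectionVars false

namespace Vale.Agent.Lib.P050.Loc

variable {V Ω : Type} [Fintype V] [DecidableEq V] [Fintype Ω] [DecidableEq Ω]

/-- the edge set of the closed sequence `c` -/
def cycE {k : ℕ} (c : Fin (k + 1) → V) : Finset (Sym2 V) :=
  Finset.univ.image fun i : Fin (k + 1) => s(c i, c (i + 1))

/-- the normalised weight of closed walks of length `k + 1` -/
noncomputable def tC (Kf : Sym2 Ω → ℝ) (k : ℕ) : ℝ :=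
  avg fun x : Fin (k + 1) → Ω => ∏ i : Fin (k + 1), Kf s(x i, x (i + 1))

lemma tC_nonneg {k : ℕ} (hev : Even (k + 1)) (Kf : Sym2 Ω → ℝ) : 0 ≤ tC Kf k := by
  unfold tC avg
  exact div_nonneg (cyc_nonneg hev Kf) (Nat.cast_nonneg _)

lemma two_ne_zero_fin {k : ℕ} (hk : 2 ≤ k) : (1 + 1 : Fin (k + 1)) ≠ 0 := by
  obtain ⟨k', rfl⟩ : ∃ k', k = k' + 2 := ⟨k - 2, by omega⟩
  intro h
  have h3 := congrArg Fin.val h
  rw [Fin.val_add, Fin.val_one, Fin.val_zero, Nat.mod_eq_of_lt (by omega)] at h3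
  omega

lemma edge_inj {k : ℕ} (hk : 2 ≤ k) (c : Fin (k + 1) → V) (hc : Function.Injective c) :
    Function.Injective fun i : Fin (k + 1) => s(c i, c (i + 1)) := by
  intro i j h
  simp only [Sym2.eq_iff] at h
  rcases h with ⟨h1, _⟩ | ⟨h1, h2⟩
  · exact hc h1
  · have e1 := hc h1
    have e2 := hc h2
    exfalso
    rw [e1, add_assoc] at e2
    exact two_ne_zero_fin hk (add_left_cancel (a := j) (by rw [e2, add_zero]))

lemma cyc_prod {k : ℕ} (hk : 2 ≤ k) (Kf : Sym2 Ω → ℝ) (c : Fin (k + 1) → V)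
    (hc : Function.Injective c) (φ : V → Ω) (x : Fin (k + 1) → Ω) :
    ∏ e ∈ cycE c, Kf (e.map (Function.extend c x φ))
      = ∏ i : Fin (k + 1), Kf s(x i, x (i + 1)) := by
  unfold cycE
  rw [Finset.prod_image (fun i _ j _ h => edge_inj hk c hc h)]
  refine Finset.prod_congr rfl fun i _ => ?_
  rw [Sym2.map_mk, hc.extend_apply, hc.extend_apply]

lemma tF_cycE [Nonempty Ω] {k : ℕ} (hk : 2 ≤ k) (Kf : Sym2 Ω → ℝ) (c : Fin (k + 1) → V)
    (hc : Function.Injective c) : tF Kf (cycE c) = tC Kf k := by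
  unfold tF
  rw [resampleC c hc]
  have h : ∀ φ : V → Ω, avg (fun x : Fin (k + 1) → Ω =>
      ∏ e ∈ cycE c, Kf (e.map (Function.extend c x φ))) = tC Kf k := by
    intro φ
    unfold tC
    exact avg_congr fun x => cyc_prod hk Kf c hc φ x
  rw [avg_congr h]
  exact avg_const _

/-- a single edge off the cycle depends on at most one cycle coordinate -/
lemma edge_one_coord {k : ℕ} (Kf : Sym2 Ω → ℝ) (ε : ℝ) (hbd : ∀ z, |Kf z| ≤ ε)
    (c : Fin (k + 1) → V) (hc : Function.Injective c) (φ : V → Ω) (e : Sym2 V)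
    (he : ∀ i j, e ≠ s(c i, c j)) :
    ∃ (i₀ : Fin (k + 1)) (h : Ω → ℝ), (∀ a, |h a| ≤ ε) ∧
      ∀ x : Fin (k + 1) → Ω, Kf (e.map (Function.extend c x φ)) = h (x i₀) := by
  induction e using Sym2.ind with
  | _ a b =>
    by_cases ha : ∃ i, c i = a
    · obtain ⟨i, rfl⟩ := ha
      have hb : ¬ ∃ j, c j = b := by
        rintro ⟨j, rfl⟩
        exact he i j rfl
      refine ⟨i, fun z => Kf s(z, φ b), fun a => hbd _, fun x => ?_⟩
      rw [Sym2.map_mk, hc.extend_apply, Function.extend_apply' _ _ _ hb]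
    · by_cases hb : ∃ j, c j = b
      · obtain ⟨j, rfl⟩ := hb
        refine ⟨j, fun z => Kf s(φ a, z), fun a => hbd _, fun x => ?_⟩
        rw [Sym2.map_mk, hc.extend_apply, Function.extend_apply' _ _ _ ha]
      · refine ⟨0, fun _ => Kf s(φ a, φ b), fun _ => hbd _, fun x => ?_⟩
        rw [Sym2.map_mk, Function.extend_apply' _ _ _ ha, Function.extend_apply' _ _ _ hb]

lemma off_cycle_prod {k : ℕ} (Kf : Sym2 Ω → ℝ) (ε : ℝ) (hε : 0 ≤ ε) (hbd : ∀ z, |Kf z| ≤ ε)
    (c : Fin (k + 1) → V) (hc : Function.Injective c) (φ : V → Ω) (S : Finset (Sym2 V))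
    (hS : ∀ e ∈ S, ∀ i j, e ≠ s(c i, c j)) :
    ∃ (g : Fin (k + 1) → Ω → ℝ) (b : Fin (k + 1) → ℝ), (∀ i, 0 ≤ b i) ∧
      (∀ i a, |g i a| ≤ b i) ∧ ∏ i, b i = ε ^ S.card ∧
      ∀ x : Fin (k + 1) → Ω,
        ∏ e ∈ S, Kf (e.map (Function.extend c x φ)) = ∏ i, g i (x i) := by
  induction S using Finset.induction_on with
  | empty =>
    exact ⟨fun _ _ => 1, fun _ => 1, fun _ => zero_le_one, fun _ _ => by simp, by simp,
      fun x => by simp⟩
  | insert e S heS ih =>
    obtain ⟨g, b, hb0, hgb, hprod, hx⟩ :=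
      ih (fun e' he' => hS e' (Finset.mem_insert_of_mem he'))
    obtain ⟨i₀, h, hh, hxe⟩ :=
      edge_one_coord Kf ε hbd c hc φ e (hS e (Finset.mem_insert_self _ _))
    refine ⟨fun i a => (if i = i₀ then h a else 1) * g i a,
      fun i => (if i = i₀ then ε else 1) * b i, ?_, ?_, ?_, ?_⟩
    · intro i
      refine mul_nonneg ?_ (hb0 i)
      split_ifs
      · exact hε
      · exact zero_le_one
    · intro i a
      rw [abs_mul]
      refine mul_le_mul ?_ (hgb i a) (abs_nonneg _) ?_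
      · split_ifs
        · exact hh a
        · simp
      · split_ifs
        · exact hε
        · exact zero_le_one
    · rw [Finset.prod_mul_distrib, Finset.prod_ite_eq', hprod, Finset.card_insert_of_notMem heS,
        pow_succ]
      simp only [Finset.mem_univ, if_true]
      ring
    · intro x
      rw [Finset.prod_insert heS, hxe, hx, Finset.prod_mul_distrib]
      congr 1
      rw [Finset.prod_ite_eq' Finset.univ i₀ (fun i => h (x i))]
      simp

/-- an induced even cycle dominates every edge set containing it -/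
theorem cyc_bound [Nonempty Ω] {k : ℕ} (hk : 2 ≤ k) (hev : Even (k + 1)) (Kf : Sym2 Ω → ℝ)
    (ε : ℝ) (hbd : ∀ z, |Kf z| ≤ ε) (c : Fin (k + 1) → V) (hc : Function.Injective c)
    (F : Finset (Sym2 V)) (hsub : cycE c ⊆ F)
    (hind : ∀ i j, s(c i, c j) ∈ F → j = i + 1 ∨ i = j + 1) :
    |tF Kf F| ≤ ε ^ (F \ cycE c).card * tC Kf k := by
  have hε : 0 ≤ ε := le_trans (abs_nonneg _) (hbd s(Classical.arbitrary Ω, Classical.arbitrary Ω))
  unfold tF
  rw [resampleC c hc]
  refine le_trans (abs_avg_le _) ?_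
  have hpt : ∀ φ : V → Ω, |avg (fun x : Fin (k + 1) → Ω =>
      ∏ e ∈ F, Kf (e.map (Function.extend c x φ)))| ≤ ε ^ (F \ cycE c).card * tC Kf k := by
    intro φ
    have hS : ∀ e ∈ F \ cycE c, ∀ i j, e ≠ s(c i, c j) := by
      intro e he i j hij
      rw [Finset.mem_sdiff] at he
      subst hij
      apply he.2
      unfold cycE
      rw [Finset.mem_image]
      rcases hind i j he.1 with h | h
      · exact ⟨i, Finset.mem_univ _, by rw [h]⟩
      · exact ⟨j, Finset.mem_univ _, by rw [h, Sym2.eq_swap]⟩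
    obtain ⟨g, b, hb0, hgb, hprod, hx⟩ := off_cycle_prod Kf ε hε hbd c hc φ (F \ cycE c) hS
    have h1 : ∀ x : Fin (k + 1) → Ω, ∏ e ∈ F, Kf (e.map (Function.extend c x φ))
        = ∏ i : Fin (k + 1), (g i (x i) * Kf s(x i, x (i + 1))) := by
      intro x
      rw [← Finset.prod_sdiff hsub, hx, cyc_prod hk Kf c hc φ x, Finset.prod_mul_distrib]
    rw [avg_congr h1]
    have h2 := wci hev Kf g b hb0 hgb
    rw [hprod] at h2
    unfold tC avg
    rw [abs_div, abs_of_nonneg (Nat.cast_nonneg (Fintype.card (Fin (k + 1) → Ω)) : (0 : ℝ) ≤ _),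
      ← mul_div_assoc]
    exact div_le_div_of_nonneg_right h2 (Nat.cast_nonneg _)
  refine le_trans (avg_mono hpt) ?_
  rw [avg_const]

end Vale.Agent.Lib.P050.Loc
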