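import Mathlib

namespace Vale.Agent.Lib.P050.Loc

variable {V : Type}

/-- `p 0, ..., p ℓ` is a path with `ℓ` edges, all in `F` -/
def IsPathN (F : Finset (Sym2 V)) (ℓ : ℕ) (p : ℕ → V) : Prop :=
  (∀ i j, i ≤ ℓ → j ≤ ℓ → p i = p j → i = j) ∧ ∀ i, i < ℓ → s(p i, p (i + 1)) ∈ F

/-- `c 0, ..., c (n - 1)` is a cycle with `n` edges, all in `F` -/
def IsCycN (F : Finset (Sym2 V)) (n : ℕ) (c : ℕ → V) : Prop :=
  3 ≤ n ∧ (∀ i j, i < n → j < n → c i = c j → i = j) ∧
    (∀ i, i + 1 < n → s(c i, c (i + 1)) ∈ F) ∧ s(c (n - 1), c 0) ∈ F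

lemma path_length_le [Fintype V] {F : Finset (Sym2 V)} {ℓ : ℕ} {p : ℕ → V}
    (h : IsPathN F ℓ p) : ℓ + 1 ≤ Fintype.card V := by
  have hinj : Function.Injective (fun i : Fin (ℓ + 1) => p i.val) := by
    intro i j hij
    exact Fin.ext (h.1 i.val j.val (by omega) (by omega) hij)
  simpa using Fintype.card_le_of_injective _ hinj

lemma exists_max_path [Fintype V] (F : Finset (Sym2 V)) (hF : F.Nonempty)
    (hloop : ∀ a, s(a, a) ∉ F) :
    ∃ ℓ p, 1 ≤ ℓ ∧ IsPathN F ℓ p ∧ ∀ ℓ' p', IsPathN F ℓ' p' → ℓ' ≤ ℓ := by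
  classical
  obtain ⟨e, he⟩ := hF
  induction e using Sym2.ind with
  | _ a b =>
    have hab : a ≠ b := by
      rintro rfl
      exact hloop _ he
    have h1 : ∃ p, IsPathN F 1 p := by
      refine ⟨fun i => if i = 0 then a else b, ?_, ?_⟩
      · intro i j hi hj hij
        interval_cases i <;> interval_cases j <;> simp_all
      · intro i hi
        interval_cases i
        simpa using he
    have hbound : ∀ ℓ, (∃ p, IsPathN F ℓ p) → ℓ ≤ Fintype.card V := by
      rintro ℓ ⟨p, hp⟩
      have := path_length_le hp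
      omega
    have h1le : 1 ≤ Fintype.card V := hbound 1 h1
    obtain ⟨p, hp⟩ := Nat.findGreatest_spec (P := fun ℓ => ∃ p, IsPathN F ℓ p) h1le h1
    refine ⟨Nat.findGreatest (fun ℓ => ∃ p, IsPathN F ℓ p) (Fintype.card V), p,
      Nat.le_findGreatest h1le h1, hp, ?_⟩
    intro ℓ' p' hp'
    exact Nat.le_findGreatest (hbound ℓ' ⟨p', hp'⟩) ⟨p', hp'⟩

lemma end_leaf_or_cycle (F : Finset (Sym2 V)) (hloop : ∀ a, s(a, a) ∉ F) {ℓ : ℕ} {p : ℕ → V}
    (hp : IsPathN F ℓ p) (hmax : ∀ ℓ' p', IsPathN F ℓ' p' → ℓ' ≤ ℓ)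
    (hnc : ¬ ∃ n c, IsCycN F n c) :
    ∀ e ∈ F, p 0 ∈ e → e = s(p 1, p 0) := by
  intro e he hmem
  obtain ⟨w, rfl⟩ := Sym2.mem_iff_exists.mp hmem
  by_cases hw : ∃ j, j ≤ ℓ ∧ p j = w
  · obtain ⟨j, hj, rfl⟩ := hw
    have hj0 : j ≠ 0 := by
      rintro rfl
      exact hloop _ he
    by_cases hj1 : j = 1
    · subst hj1
      exact Sym2.eq_swap
    · exfalso
      apply hnc
      refine ⟨j + 1, p, by omega, ?_, ?_, ?_⟩
      · intro i i' hi hi' h
        exact hp.1 i i' (by omega) (by omega) h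
      · intro i hi
        exact hp.2 i (by omega)
      · show s(p (j + 1 - 1), p 0) ∈ F
        rw [Nat.add_sub_cancel, Sym2.eq_swap]
        exact he
  · exfalso
    have hw' : ∀ j, j ≤ ℓ → p j ≠ w := fun j hj h => hw ⟨j, hj, h⟩
    have hnew : IsPathN F (ℓ + 1) (fun i => if i = 0 then w else p (i - 1)) := by
      refine ⟨?_, ?_⟩
      · intro i j hi hj hij
        by_cases hi0 : i = 0
        · by_cases hj0 : j = 0
          · omega
          · simp only [hi0, hj0, if_true, if_false] at hij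
            exact absurd hij.symm (hw' (j - 1) (by omega))
        · by_cases hj0 : j = 0
          · simp only [hi0, hj0, if_true, if_false] at hij
            exact absurd hij (hw' (i - 1) (by omega))
          · simp only [hi0, hj0, if_false] at hij
            have := hp.1 (i - 1) (j - 1) (by omega) (by omega) hij
            omega
      · intro i hi
        by_cases hi0 : i = 0
        · subst hi0
          have h0 : s(w, p 0) ∈ F := by
            rw [Sym2.eq_swap]
            exact he
          simpa using h0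
        · have h2 := hp.2 (i - 1) (by omega)
          have h3 : i - 1 + 1 = i := by omega
          rw [h3] at h2
          simpa [hi0] using h2
    have := hmax _ _ hnew
    omega

lemma path_reverse {F : Finset (Sym2 V)} {ℓ : ℕ} {p : ℕ → V} (hp : IsPathN F ℓ p) :
    IsPathN F ℓ (fun i => p (ℓ - i)) := by
  refine ⟨?_, ?_⟩
  · intro i j hi hj hij
    have := hp.1 (ℓ - i) (ℓ - j) (by omega) (by omega) hij
    omega
  · intro i hi
    have h2 := hp.2 (ℓ - (i + 1)) (by omega)
    have h3 : ℓ - (i + 1) + 1 = ℓ - i := by omega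
    rw [h3, Sym2.eq_swap] at h2
    exact h2

lemma min_cycle_chordless {F : Finset (Sym2 V)} {n : ℕ} {c : ℕ → V} (hc : IsCycN F n c)
    (hmin : ∀ n' c', IsCycN F n' c' → n ≤ n') :
    ∀ i j, i < j → j < n → s(c i, c j) ∈ F → j = i + 1 ∨ (i = 0 ∧ j + 1 = n) := by
  intro i j hij hj hmem
  by_contra hcon
  push Not at hcon
  obtain ⟨h1, h2⟩ := hcon
  have hcyc : IsCycN F (j - i + 1) (fun m => c (i + m)) := by
    refine ⟨by omega, ?_, ?_, ?_⟩
    · intro m m' hm hm' h
      have := hc.2.1 (i + m) (i + m') (by omega) (by omega) h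
      omega
    · intro m hm
      exact hc.2.2.1 (i + m) (by omega)
    · show s(c (i + (j - i + 1 - 1)), c (i + 0)) ∈ F
      have h3 : i + (j - i + 1 - 1) = j := by omega
      rw [h3, Nat.add_zero, Sym2.eq_swap]
      exact hmem
  have := hmin _ _ hcyc
  by_cases hi : i = 0
  · have := h2 hi
    omega
  · omega

lemma cycle_even {F : Finset (Sym2 V)} (col : V → Fin 2)
    (hcol : ∀ a b, s(a, b) ∈ F → col a ≠ col b) {n : ℕ} {c : ℕ → V} (hc : IsCycN F n c) :
    Even n := by
  have key : ∀ x y z : Fin 2, x ≠ y → (y = z ↔ ¬ x = z) := by decide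
  have h : ∀ i, i < n → (col (c i) = col (c 0) ↔ Even i) := by
    intro i
    induction i with
    | zero =>
      intro _
      simp
    | succ i ih =>
      intro hi
      have h1 := hcol _ _ (hc.2.2.1 i hi)
      rw [key _ _ (col (c 0)) h1, ih (by omega), Nat.even_add_one]
  have h1 := hcol _ _ hc.2.2.2
  have h2 := (h (n - 1) (by have := hc.1; omega)).not.mp h1
  have h3 : n = n - 1 + 1 := by
    have := hc.1
    omega
  rw [h3, Nat.even_add_one]
  exact h2

lemma fin_succ_val {k : ℕ} (i : Fin (k + 1)) (h : i.val < k) : (i + 1).val = i.val + 1 := by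
  rw [Fin.val_add_one]
  have hne : i ≠ Fin.last k := by
    intro h'
    rw [h'] at h
    simp at h
  simp [hne]

lemma fin_last_succ_val {k : ℕ} (i : Fin (k + 1)) (h : i.val = k) : (i + 1).val = 0 := by
  have hi : i = Fin.last k := Fin.ext h
  rw [hi, Fin.last_add_one]
  rfl

lemma cycle_to_fin {F : Finset (Sym2 V)} (hloop : ∀ a, s(a, a) ∉ F) {k : ℕ} {c : ℕ → V}
    (hc : IsCycN F (k + 1) c) (hmin : ∀ n' c', IsCycN F n' c' → k + 1 ≤ n') :
    Function.Injective (fun i : Fin (k + 1) => c i.val) ∧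
    (∀ i : Fin (k + 1), s(c i.val, c (i + 1).val) ∈ F) ∧
    (∀ i j : Fin (k + 1), s(c i.val, c j.val) ∈ F → j = i + 1 ∨ i = j + 1) := by
  refine ⟨?_, ?_, ?_⟩
  · intro i j h
    exact Fin.ext (hc.2.1 i.val j.val i.isLt j.isLt h)
  · intro i
    by_cases h : i.val < k
    · rw [fin_succ_val i h]
      exact hc.2.2.1 i.val (by omega)
    · have hi : i.val = k := by
        have := i.isLt
        omega
      rw [fin_last_succ_val i hi, hi]
      have := hc.2.2.2
      simpa using this
  · have hch := min_cycle_chordless hc hmin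
    intro i j hmem
    have hne : i.val ≠ j.val := by
      intro h
      rw [h] at hmem
      exact hloop _ hmem
    rcases lt_or_gt_of_ne hne with hlt | hgt
    · rcases hch i.val j.val hlt j.isLt hmem with h | ⟨h0, h1⟩
      · left
        apply Fin.ext
        rw [fin_succ_val i (by have := j.isLt; omega)]
        exact h
      · right
        apply Fin.ext
        rw [fin_last_succ_val j (by omega)]
        exact h0
    · rw [Sym2.eq_swap] at hmem
      rcases hch j.val i.val hgt i.isLt hmem with h | ⟨h0, h1⟩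
      · right
        apply Fin.ext
        rw [fin_succ_val j (by have := i.isLt; omega)]
        exact h
      · left
        apply Fin.ext
        rw [fin_last_succ_val i (by omega)]
        exact h0

end Vale.Agent.Lib.P050.Loc
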