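import Vale.Agent.Lib.P050.LocAvg

set_option linter.unusedSectionVars false

namespace Vale.Agent.Lib.P050.Loc

variable {V Ω : Type} [Fintype V] [DecidableEq V] [Fintype Ω] [DecidableEq Ω]

/-- the density of the edge set `F` in the signed kernel `Kf` -/
noncomputable def tF (Kf : Sym2 Ω → ℝ) (F : Finset (Sym2 V)) : ℝ :=
  avg fun φ : V → Ω => ∏ e ∈ F, Kf (e.map φ)

/-- the degree function of the signed kernel -/
noncomputable def dg (Kf : Sym2 Ω → ℝ) (x : Ω) : ℝ := avg fun y => Kf s(x, y)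

/-- the second moment of the degree function -/
noncomputable def DD (Kf : Sym2 Ω → ℝ) : ℝ := avg fun x => dg Kf x ^ 2

lemma DD_nonneg (Kf : Sym2 Ω → ℝ) : 0 ≤ DD Kf := avg_nonneg fun _ => sq_nonneg _

lemma map_update_of_not_mem (φ : V → Ω) (v : V) (a : Ω) (e : Sym2 V) (h : v ∉ e) :
    e.map (Function.update φ v a) = e.map φ := by
  refine Sym2.map_congr fun x hx => ?_
  have hxv : x ≠ v := by
    rintro rfl
    exact h hx
  exact Function.update_of_ne hxv _ _

/-- integrating out a leaf -/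
lemma leaf_step [Nonempty Ω] (Kf : Sym2 Ω → ℝ) (F : Finset (Sym2 V)) (u v : V) (huv : u ≠ v)
    (hmem : s(u, v) ∈ F) (hleaf : ∀ e ∈ F, v ∈ e → e = s(u, v))
    (G : (V → Ω) → ℝ) (hG : ∀ φ a, G (Function.update φ v a) = G φ) :
    avg (fun φ : V → Ω => G φ * ∏ e ∈ F, Kf (e.map φ))
      = avg (fun φ : V → Ω => G φ * dg Kf (φ u) * ∏ e ∈ F.erase s(u, v), Kf (e.map φ)) := by
  rw [resample1 v]
  refine avg_congr fun φ => ?_
  have h1 : ∀ a, G (Function.update φ v a) * ∏ e ∈ F, Kf (e.map (Function.update φ v a))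
      = (G φ * ∏ e ∈ F.erase s(u, v), Kf (e.map φ)) * Kf s(φ u, a) := by
    intro a
    rw [hG, ← Finset.mul_prod_erase F _ hmem]
    have h2 : ∏ e ∈ F.erase s(u, v), Kf (e.map (Function.update φ v a))
        = ∏ e ∈ F.erase s(u, v), Kf (e.map φ) := by
      refine Finset.prod_congr rfl fun e he => ?_
      rw [map_update_of_not_mem]
      intro hx
      exact (Finset.ne_of_mem_erase he) (hleaf e (Finset.mem_of_mem_erase he) hx)
    rw [h2, Sym2.map_mk, Function.update_of_ne huv, Function.update_self]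
    ring
  rw [avg_congr h1, avg_mul_left]
  unfold dg
  ring

/-- an isolated edge kills the density -/
lemma iso_zero [Nonempty Ω] (Kf : Sym2 Ω → ℝ) (hmean : avg (dg Kf) = 0) (F : Finset (Sym2 V))
    (u v : V) (huv : u ≠ v) (hmem : s(u, v) ∈ F)
    (hv : ∀ e ∈ F, v ∈ e → e = s(u, v)) (hu : ∀ e ∈ F, u ∈ e → e = s(u, v)) :
    tF Kf F = 0 := by
  have h := leaf_step Kf F u v huv hmem hv (fun _ => 1) (fun _ _ => rfl)
  simp only [one_mul] at h
  unfold tF
  rw [h, resample1 u]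
  have h0 : ∀ φ : V → Ω, avg (fun a => dg Kf (Function.update φ u a u)
      * ∏ e ∈ F.erase s(u, v), Kf (e.map (Function.update φ u a))) = 0 := by
    intro φ
    have h2 : ∀ a, dg Kf (Function.update φ u a u)
        * ∏ e ∈ F.erase s(u, v), Kf (e.map (Function.update φ u a))
        = dg Kf a * ∏ e ∈ F.erase s(u, v), Kf (e.map φ) := by
      intro a
      rw [Function.update_self]
      congr 1
      refine Finset.prod_congr rfl fun e he => ?_
      rw [map_update_of_not_mem]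
      intro hx
      exact (Finset.ne_of_mem_erase he) (hu e (Finset.mem_of_mem_erase he) hx)
    rw [avg_congr h2, avg_mul_right, hmean, zero_mul]
  rw [avg_congr h0]
  exact avg_const 0

/-- integrating out two leaves with distinct pendant edges -/
lemma two_leaf [Nonempty Ω] (Kf : Sym2 Ω → ℝ) (F : Finset (Sym2 V)) (u v u' v' : V)
    (huv : u ≠ v) (hu'v' : u' ≠ v') (hmem : s(u, v) ∈ F) (hmem' : s(u', v') ∈ F)
    (hne : s(u, v) ≠ s(u', v'))
    (hv : ∀ e ∈ F, v ∈ e → e = s(u, v)) (hv' : ∀ e ∈ F, v' ∈ e → e = s(u', v')) :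
    tF Kf F = avg fun φ : V → Ω => dg Kf (φ u) * dg Kf (φ u')
      * ∏ e ∈ (F.erase s(u, v)).erase s(u', v'), Kf (e.map φ) := by
  have h := leaf_step Kf F u v huv hmem hv (fun _ => 1) (fun _ _ => rfl)
  simp only [one_mul] at h
  unfold tF
  rw [h]
  have huv' : u ≠ v' := by
    rintro rfl
    exact hne (hv' _ hmem (Sym2.mem_mk_left _ _))
  have hmem2 : s(u', v') ∈ F.erase s(u, v) := Finset.mem_erase.mpr ⟨Ne.symm hne, hmem'⟩
  exact leaf_step Kf (F.erase s(u, v)) u' v' hu'v' hmem2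
    (fun e he hx => hv' e (Finset.mem_of_mem_erase he) hx)
    (fun φ => dg Kf (φ u)) (fun φ a => by rw [Function.update_of_ne huv'])

lemma abs_prod_le_pow (Kf : Sym2 Ω → ℝ) (ε : ℝ) (hbd : ∀ z, |Kf z| ≤ ε)
    (R : Finset (Sym2 V)) (φ : V → Ω) : |∏ e ∈ R, Kf (e.map φ)| ≤ ε ^ R.card := by
  rw [Finset.abs_prod, ← Finset.prod_const]
  exact Finset.prod_le_prod (fun _ _ => abs_nonneg _) (fun _ _ => hbd _)

/-- the two-leaf bound -/
lemma two_leaf_bound [Nonempty Ω] (Kf : Sym2 Ω → ℝ) (ε : ℝ) (hbd : ∀ z, |Kf z| ≤ ε)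
    (F : Finset (Sym2 V)) (u v u' v' : V)
    (huv : u ≠ v) (hu'v' : u' ≠ v') (hmem : s(u, v) ∈ F) (hmem' : s(u', v') ∈ F)
    (hne : s(u, v) ≠ s(u', v'))
    (hv : ∀ e ∈ F, v ∈ e → e = s(u, v)) (hv' : ∀ e ∈ F, v' ∈ e → e = s(u', v')) :
    |tF Kf F| ≤ ε ^ (F.card - 2) * DD Kf := by
  have hε : 0 ≤ ε := le_trans (abs_nonneg _) (hbd s(Classical.arbitrary Ω, Classical.arbitrary Ω))
  rw [two_leaf Kf F u v u' v' huv hu'v' hmem hmem' hne hv hv']
  have hmem2 : s(u', v') ∈ F.erase s(u, v) := Finset.mem_erase.mpr ⟨Ne.symm hne, hmem'⟩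
  have hcard : ((F.erase s(u, v)).erase s(u', v')).card = F.card - 2 := by
    rw [Finset.card_erase_of_mem hmem2, Finset.card_erase_of_mem hmem]
    rfl
  refine le_trans (abs_avg_le _) ?_
  have hpt : ∀ φ : V → Ω, |dg Kf (φ u) * dg Kf (φ u')
      * ∏ e ∈ (F.erase s(u, v)).erase s(u', v'), Kf (e.map φ)|
      ≤ ε ^ (F.card - 2) * (1 / 2) * dg Kf (φ u) ^ 2
        + ε ^ (F.card - 2) * (1 / 2) * dg Kf (φ u') ^ 2 := by
    intro φ
    rw [abs_mul]
    have h1 := abs_prod_le_pow Kf ε hbd ((F.erase s(u, v)).erase s(u', v')) φ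
    rw [hcard] at h1
    have h2 : |dg Kf (φ u) * dg Kf (φ u')| ≤ (1 / 2) * dg Kf (φ u) ^ 2
        + (1 / 2) * dg Kf (φ u') ^ 2 := by
      rw [abs_le]
      constructor
      · nlinarith [sq_nonneg (dg Kf (φ u) + dg Kf (φ u'))]
      · nlinarith [sq_nonneg (dg Kf (φ u) - dg Kf (φ u'))]
    have h3 : 0 ≤ ε ^ (F.card - 2) := pow_nonneg hε _
    calc |dg Kf (φ u) * dg Kf (φ u')| * |∏ e ∈ (F.erase s(u, v)).erase s(u', v'), Kf (e.map φ)|
        ≤ ((1 / 2) * dg Kf (φ u) ^ 2 + (1 / 2) * dg Kf (φ u') ^ 2) * ε ^ (F.card - 2) :=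
          mul_le_mul h2 h1 (abs_nonneg _) (le_trans (abs_nonneg _) h2)
      _ = _ := by ring
  refine le_trans (avg_mono hpt) ?_
  rw [avg_add, avg_mul_left, avg_mul_left, avg_coord u (fun x => dg Kf x ^ 2),
    avg_coord u' (fun x => dg Kf x ^ 2)]
  unfold DD
  apply le_of_eq
  ring

/-- the density of a cherry is the second moment of the degree function -/
lemma cherry_eq [Nonempty Ω] (Kf : Sym2 Ω → ℝ) (u v w : V) (huv : u ≠ v) (huw : u ≠ w)
    (hvw : v ≠ w) : tF Kf ({s(u, v), s(u, w)} : Finset (Sym2 V)) = DD Kf := by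
  have hne : s(u, v) ≠ s(u, w) := by
    intro h
    rw [Sym2.eq_iff] at h
    rcases h with ⟨_, h⟩ | ⟨h, _⟩
    · exact hvw h
    · exact huw h
  have hv : ∀ e ∈ ({s(u, v), s(u, w)} : Finset (Sym2 V)), v ∈ e → e = s(u, v) := by
    intro e he hx
    rw [Finset.mem_insert, Finset.mem_singleton] at he
    rcases he with rfl | rfl
    · rfl
    · rw [Sym2.mem_iff] at hx
      rcases hx with h | h
      · exact absurd h.symm huv
      · exact absurd h hvw
  have hw : ∀ e ∈ ({s(u, v), s(u, w)} : Finset (Sym2 V)), w ∈ e → e = s(u, w) := by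
    intro e he hx
    rw [Finset.mem_insert, Finset.mem_singleton] at he
    rcases he with rfl | rfl
    · rw [Sym2.mem_iff] at hx
      rcases hx with h | h
      · exact absurd h.symm huw
      · exact absurd h.symm hvw
    · rfl
  rw [two_leaf Kf _ u v u w huv huw (Finset.mem_insert_self _ _)
    (Finset.mem_insert_of_mem (Finset.mem_singleton_self _)) hne hv hw]
  have hemp : (({s(u, v), s(u, w)} : Finset (Sym2 V)).erase s(u, v)).erase s(u, w) = ∅ := by
    ext e
    simp only [Finset.mem_erase, Finset.mem_insert, Finset.mem_singleton, Finset.notMem_empty,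
      iff_false]
    tauto
  rw [hemp]
  simp only [Finset.prod_empty, mul_one]
  rw [avg_coord u (fun x => dg Kf x * dg Kf x)]
  unfold DD
  exact avg_congr fun x => (sq _).symm

end Vale.Agent.Lib.P050.Loc
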