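import Vale.Agent.Lib.P050.LocCyc
import Vale.Agent.Lib.P050.LocGraph

set_option linter.unusedSectionVars false

namespace Vale.Agent.Lib.P050.Loc

section charging

variable {α : Type} [DecidableEq α]

lemma superset_sum (E C : Finset α) (hC : C ⊆ E) (ε : ℝ) (hε : 0 ≤ ε) :
    ∑ F ∈ E.powerset, (if C ⊂ F then ε ^ (F \ C).card else 0) ≤ (1 + ε) ^ E.card - 1 := by
  rw [← Finset.sum_filter]
  have h1 : ∑ F ∈ E.powerset with C ⊂ F, ε ^ (F \ C).card
      = ∑ S ∈ (E \ C).powerset.erase ∅, ε ^ S.card := by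
    refine Finset.sum_nbij' (fun F => F \ C) (fun S => C ∪ S) ?_ ?_ ?_ ?_ ?_
    · intro F hF
      rw [Finset.mem_filter, Finset.mem_powerset] at hF
      rw [Finset.mem_erase, Finset.mem_powerset]
      refine ⟨?_, Finset.sdiff_subset_sdiff hF.1 (Finset.Subset.refl _)⟩
      intro h
      rw [Finset.sdiff_eq_empty_iff_subset] at h
      exact hF.2.2 h
    · intro S hS
      rw [Finset.mem_erase, Finset.mem_powerset] at hS
      rw [Finset.mem_filter, Finset.mem_powerset]
      refine ⟨Finset.union_subset hC (hS.2.trans Finset.sdiff_subset), ?_⟩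
      rw [Finset.ssubset_iff_subset_ne]
      refine ⟨Finset.subset_union_left, ?_⟩
      intro h
      apply hS.1
      rw [Finset.eq_empty_iff_forall_notMem]
      intro x hx
      have hxC : x ∈ C := by
        rw [h]
        exact Finset.mem_union_right _ hx
      exact (Finset.mem_sdiff.mp (hS.2 hx)).2 hxC
    · intro F hF
      rw [Finset.mem_filter, Finset.mem_powerset] at hF
      exact Finset.union_sdiff_of_subset hF.2.1
    · intro S hS
      rw [Finset.mem_erase, Finset.mem_powerset] at hS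
      ext x
      simp only [Finset.mem_sdiff, Finset.mem_union]
      constructor
      · rintro ⟨h | h, h'⟩
        · exact absurd h h'
        · exact h
      · intro h
        exact ⟨Or.inr h, (Finset.mem_sdiff.mp (hS.2 h)).2⟩
    · intro F _
      rfl
  rw [h1, Finset.sum_erase_eq_sub (Finset.empty_mem_powerset _)]
  have h2 := Finset.sum_pow_mul_eq_add_pow ε 1 (E \ C)
  simp only [one_pow, mul_one] at h2
  rw [h2, Finset.card_empty, pow_zero, add_comm ε 1]
  have h3 : (1 + ε) ^ (E \ C).card ≤ (1 + ε) ^ E.card :=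
    pow_le_pow_right₀ (by linarith) (Finset.card_le_card Finset.sdiff_subset)
  linarith

/-- the charging argument: negative terms are paid for by the good terms below them -/
theorem charge (E : Finset α) (t : Finset α → ℝ) (good : Finset α → Prop)
    (ε : ℝ) (hε : 0 ≤ ε) (hsmall : (1 + ε) ^ E.card ≤ 2)
    (hgood : ∀ C, C ⊆ E → good C → 0 ≤ t C) (hne : ¬ good ∅)
    (hbad : ∀ F, F ⊆ E → F ≠ ∅ →
      (t F = 0 ∨ ∃ C, C ⊆ F ∧ good C ∧ |t F| ≤ ε ^ (F \ C).card * t C)) :
    t ∅ ≤ ∑ F ∈ E.powerset, t F := by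
  classical
  set G := E.powerset.filter good with hG
  have hGsub : G ⊆ E.powerset := Finset.filter_subset _ _
  have hGnn : ∀ C ∈ G, 0 ≤ t C := fun C hC =>
    hgood C (Finset.mem_powerset.mp (Finset.mem_filter.mp hC).1) (Finset.mem_filter.mp hC).2
  have hterm : ∀ F : Finset α, ∀ C ∈ G,
      0 ≤ (if C ⊂ F then ε ^ (F \ C).card * t C else 0) := by
    intro F C hC
    split_ifs
    · exact mul_nonneg (pow_nonneg hε _) (hGnn C hC)
    · exact le_refl _
  have hr : ∀ F ∈ E.powerset, (if F = ∅ then t ∅ else 0) + (if F ∈ G then t F else 0)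
      - ∑ C ∈ G, (if C ⊂ F then ε ^ (F \ C).card * t C else 0) ≤ t F := by
    intro F hF
    have hFE := Finset.mem_powerset.mp hF
    have hrn : 0 ≤ ∑ C ∈ G, (if C ⊂ F then ε ^ (F \ C).card * t C else 0) :=
      Finset.sum_nonneg fun C hC => hterm F C hC
    by_cases h0 : F = ∅
    · subst h0
      have h1 : (∅ : Finset α) ∉ G := fun h => hne (Finset.mem_filter.mp h).2
      simp only [if_true, h1, if_false]
      linarith
    · by_cases hFG : F ∈ G
      · simp only [h0, hFG, if_true, if_false]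
        linarith
      · simp only [h0, hFG, if_false]
        rcases hbad F hFE h0 with hz | ⟨C, hCF, hCg, hle⟩
        · rw [hz]
          linarith
        · have hCG : C ∈ G :=
            Finset.mem_filter.mpr ⟨Finset.mem_powerset.mpr (hCF.trans hFE), hCg⟩
          have hCne : C ≠ F := by
            rintro rfl
            exact hFG hCG
          have hss : C ⊂ F := Finset.ssubset_iff_subset_ne.mpr ⟨hCF, hCne⟩
          have hsingle := Finset.single_le_sum
            (f := fun C => if C ⊂ F then ε ^ (F \ C).card * t C else 0)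
            (fun C hC => hterm F C hC) hCG
          simp only [hss, if_true] at hsingle
          have := neg_abs_le (t F)
          linarith
  refine le_trans ?_ (Finset.sum_le_sum hr)
  rw [Finset.sum_sub_distrib, Finset.sum_add_distrib,
    Finset.sum_ite_eq' E.powerset ∅ (fun _ => t ∅), if_pos (Finset.empty_mem_powerset _),
    ← Finset.sum_filter, Finset.filter_mem_eq_inter, Finset.inter_eq_right.mpr hGsub,
    Finset.sum_comm]
  have hle : ∑ C ∈ G, ∑ F ∈ E.powerset, (if C ⊂ F then ε ^ (F \ C).card * t C else 0)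
      ≤ ∑ C ∈ G, t C := by
    refine Finset.sum_le_sum fun C hC => ?_
    have hCE : C ⊆ E := Finset.mem_powerset.mp (hGsub hC)
    have h1 : ∑ F ∈ E.powerset, (if C ⊂ F then ε ^ (F \ C).card * t C else 0)
        = (∑ F ∈ E.powerset, (if C ⊂ F then ε ^ (F \ C).card else 0)) * t C := by
      rw [Finset.sum_mul]
      refine Finset.sum_congr rfl fun F _ => ?_
      split_ifs
      · rfl
      · rw [zero_mul]
    rw [h1]
    have h2 := superset_sum E C hCE ε hε
    have h3 : ∑ F ∈ E.powerset, (if C ⊂ F then ε ^ (F \ C).card else 0) ≤ 1 := by linarith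
    calc (∑ F ∈ E.powerset, (if C ⊂ F then ε ^ (F \ C).card else 0)) * t C
        ≤ 1 * t C := mul_le_mul_of_nonneg_right h3 (hGnn C hC)
      _ = t C := one_mul _
  linarith

end charging

variable {V Ω : Type} [Fintype V] [DecidableEq V] [Fintype Ω] [DecidableEq Ω]

/-- cherries and even cycles -/
def Good (C : Finset (Sym2 V)) : Prop :=
  (∃ u v w : V, u ≠ v ∧ u ≠ w ∧ v ≠ w ∧ C = {s(u, v), s(u, w)}) ∨
  (∃ (k : ℕ) (c : Fin (k + 1) → V), 2 ≤ k ∧ Even (k + 1) ∧ Function.Injective c ∧ C = cycE c)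

lemma good_nonneg [Nonempty Ω] (Kf : Sym2 Ω → ℝ) {C : Finset (Sym2 V)} (h : Good C) :
    0 ≤ tF Kf C := by
  rcases h with ⟨u, v, w, huv, huw, hvw, rfl⟩ | ⟨k, c, hk, hev, hc, rfl⟩
  · rw [cherry_eq Kf u v w huv huw hvw]
    exact DD_nonneg Kf
  · rw [tF_cycE hk Kf c hc]
    exact tC_nonneg hev Kf

lemma good_ne_empty {C : Finset (Sym2 V)} (h : Good C) : C ≠ ∅ := by
  rcases h with ⟨u, v, w, huv, huw, hvw, rfl⟩ | ⟨k, c, hk, hev, hc, rfl⟩
  · exact Finset.insert_ne_empty _ _
  · unfold cycE
    exact (Finset.univ_nonempty.image _).ne_empty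

lemma exists_min_cycle {F : Finset (Sym2 V)} (h : ∃ n c, IsCycN F n c) :
    ∃ n c, IsCycN F n c ∧ ∀ n' c', IsCycN F n' c' → n ≤ n' := by
  classical
  obtain ⟨c, hc⟩ := Nat.find_spec h
  exact ⟨Nat.find h, c, hc, fun n' c' h' => Nat.find_min' h ⟨c', h'⟩⟩

/-- every nonempty edge set of a bipartite graph has vanishing density or is dominated by a
cherry or an even cycle inside it -/
theorem classify [Nonempty Ω] (F : Finset (Sym2 V)) (hF : F.Nonempty) (col : V → Fin 2)
    (hcol : ∀ a b, s(a, b) ∈ F → col a ≠ col b) (Kf : Sym2 Ω → ℝ) (hmean : avg (dg Kf) = 0)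
    (ε : ℝ) (hbd : ∀ z, |Kf z| ≤ ε) :
    tF Kf F = 0 ∨ ∃ C, C ⊆ F ∧ Good C ∧ |tF Kf F| ≤ ε ^ (F \ C).card * tF Kf C := by
  have hloop : ∀ a, s(a, a) ∉ F := fun a h => hcol a a h rfl
  by_cases hcyc : ∃ n c, IsCycN F n c
  · right
    obtain ⟨n, c, hc, hmin⟩ := exists_min_cycle hcyc
    have hev := cycle_even col hcol hc
    obtain ⟨k, rfl⟩ : ∃ k, n = k + 1 := ⟨n - 1, by have := hc.1; omega⟩
    have hk : 2 ≤ k := by
      have := hc.1
      omega
    obtain ⟨hinj, hedge, hind⟩ := cycle_to_fin hloop hc hmin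
    have hsub : cycE (fun i : Fin (k + 1) => c i.val) ⊆ F := by
      intro e he
      unfold cycE at he
      rw [Finset.mem_image] at he
      obtain ⟨i, _, rfl⟩ := he
      exact hedge i
    refine ⟨cycE (fun i : Fin (k + 1) => c i.val), hsub, Or.inr ⟨k, _, hk, hev, hinj, rfl⟩, ?_⟩
    rw [tF_cycE hk Kf _ hinj]
    exact cyc_bound hk hev Kf ε hbd _ hinj F hsub hind
  · obtain ⟨ℓ, p, hℓ, hp, hmax⟩ := exists_max_path F hF hloop
    have hleaf0 := end_leaf_or_cycle F hloop hp hmax hcyc
    have hleafL := end_leaf_or_cycle F hloop (path_reverse hp) hmax hcyc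
    simp only [Nat.sub_zero] at hleafL
    have h01 : s(p 1, p 0) ∈ F := by
      have := hp.2 0 (by omega)
      rw [Sym2.eq_swap] at this
      exact this
    have hne01 : p 1 ≠ p 0 := fun h => by
      have := hp.1 1 0 (by omega) (by omega) h
      omega
    by_cases hℓ1 : ℓ = 1
    · left
      subst hℓ1
      refine iso_zero Kf hmean F (p 1) (p 0) hne01 h01 hleaf0 ?_
      intro e he hmem
      have := hleafL e he hmem
      rw [this]
      exact Sym2.eq_swap
    · right
      have hℓ2 : 2 ≤ ℓ := by omega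
      have hLmem : s(p (ℓ - 1), p ℓ) ∈ F := by
        have := hp.2 (ℓ - 1) (by omega)
        have h3 : ℓ - 1 + 1 = ℓ := by omega
        rw [h3] at this
        exact this
      have hneL : p (ℓ - 1) ≠ p ℓ := fun h => by
        have := hp.1 (ℓ - 1) ℓ (by omega) (by omega) h
        omega
      have hne : s(p 1, p 0) ≠ s(p (ℓ - 1), p ℓ) := by
        intro h
        have hm : p 0 ∈ s(p (ℓ - 1), p ℓ) := by
          rw [← h]
          exact Sym2.mem_mk_right _ _
        rw [Sym2.mem_iff] at hm
        rcases hm with h | h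
        · have := hp.1 0 (ℓ - 1) (by omega) (by omega) h
          omega
        · have := hp.1 0 ℓ (by omega) (by omega) h
          omega
      have hb := two_leaf_bound Kf ε hbd F (p 1) (p 0) (p (ℓ - 1)) (p ℓ) hne01 hneL h01 hLmem
        hne hleaf0 hleafL
      have h12 : s(p 1, p 2) ∈ F := hp.2 1 (by omega)
      have hne12 : p 1 ≠ p 2 := fun h => by
        have := hp.1 1 2 (by omega) (by omega) h
        omega
      have hne02 : p 0 ≠ p 2 := fun h => by
        have := hp.1 0 2 (by omega) (by omega) h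
        omega
      have hCne : s(p 1, p 0) ≠ s(p 1, p 2) := by
        intro h
        rw [Sym2.eq_iff] at h
        rcases h with ⟨_, h⟩ | ⟨h, _⟩
        · exact hne02 h
        · exact hne12 h
      have hsub : ({s(p 1, p 0), s(p 1, p 2)} : Finset (Sym2 V)) ⊆ F := by
        intro e he
        rw [Finset.mem_insert, Finset.mem_singleton] at he
        rcases he with rfl | rfl
        · exact h01
        · exact h12
      refine ⟨{s(p 1, p 0), s(p 1, p 2)}, hsub,
        Or.inl ⟨p 1, p 0, p 2, hne01, hne12, hne02, rfl⟩, ?_⟩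
      rw [cherry_eq Kf (p 1) (p 0) (p 2) hne01 hne12 hne02, Finset.card_sdiff_of_subset hsub,
        Finset.card_pair hCne]
      exact hb

lemma expand (Kf : Sym2 Ω → ℝ) (F : Finset (Sym2 V)) :
    avg (fun φ : V → Ω => ∏ e ∈ F, (1 + Kf (e.map φ))) = ∑ S ∈ F.powerset, tF Kf S := by
  unfold tF
  rw [← avg_finset_sum]
  refine avg_congr fun φ => ?_
  rw [Finset.prod_one_add]

/-- the local Sidorenko inequality for signed perturbations of size at most `(log 2) / m` -/
theorem local_main [Nonempty Ω] (F : Finset (Sym2 V)) (col : V → Fin 2)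
    (hcol : ∀ a b, s(a, b) ∈ F → col a ≠ col b) (Kf : Sym2 Ω → ℝ) (hmean : avg (dg Kf) = 0)
    (ε : ℝ) (hbd : ∀ z, |Kf z| ≤ ε) (hsmall : ε * F.card ≤ Real.log 2) :
    1 ≤ avg (fun φ : V → Ω => ∏ e ∈ F, (1 + Kf (e.map φ))) := by
  have hε : 0 ≤ ε := le_trans (abs_nonneg _) (hbd s(Classical.arbitrary Ω, Classical.arbitrary Ω))
  rw [expand]
  have h1 : (1 + ε) ^ F.card ≤ 2 := by
    calc (1 + ε) ^ F.card ≤ (Real.exp ε) ^ F.card :=
          pow_le_pow_left₀ (by linarith) (by linarith [Real.add_one_le_exp ε]) _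
      _ = Real.exp (ε * F.card) := by
          rw [← Real.exp_nat_mul, mul_comm]
      _ ≤ Real.exp (Real.log 2) := Real.exp_le_exp.mpr hsmall
      _ = 2 := Real.exp_log (by norm_num)
  have h := charge F (tF Kf) Good ε hε h1 (fun C _ hC => good_nonneg Kf hC)
    (fun h => good_ne_empty h rfl) (fun S hS hne => classify S (Finset.nonempty_iff_ne_empty.mpr hne)
      col (fun a b hab => hcol a b (hS hab)) Kf hmean ε hbd)
  have h0 : tF Kf (∅ : Finset (Sym2 V)) = 1 := by
    unfold tF
    simp only [Finset.prod_empty]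
    exact avg_const 1
  rw [h0] at h
  exact h

end Vale.Agent.Lib.P050.Loc
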