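import Mathlib

set_option linter.unusedSectionVars false

namespace Vale.Agent.Lib.P050.Loc

open Matrix

variable {K : Type} [Fintype K] [DecidableEq K]

/-- `M` multiplies Euclidean lengths by at most `b` -/
def IsBdd (M : Matrix K K ℝ) (b : ℝ) : Prop :=
  0 ≤ b ∧ ∀ v : K → ℝ, (M *ᵥ v) ⬝ᵥ (M *ᵥ v) ≤ b ^ 2 * (v ⬝ᵥ v)

lemma dot_self_nonneg (v : K → ℝ) : 0 ≤ v ⬝ᵥ v := by
  simp only [dotProduct]
  exact Finset.sum_nonneg fun i _ => mul_self_nonneg _

lemma isBdd_one : IsBdd (1 : Matrix K K ℝ) 1 := by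
  refine ⟨zero_le_one, fun v => ?_⟩
  simp

lemma isBdd_mul {M M' : Matrix K K ℝ} {b b' : ℝ} (h : IsBdd M b) (h' : IsBdd M' b') :
    IsBdd (M * M') (b * b') := by
  refine ⟨mul_nonneg h.1 h'.1, fun v => ?_⟩
  rw [← mulVec_mulVec]
  calc (M *ᵥ (M' *ᵥ v)) ⬝ᵥ (M *ᵥ (M' *ᵥ v)) ≤ b ^ 2 * ((M' *ᵥ v) ⬝ᵥ (M' *ᵥ v)) := h.2 _
    _ ≤ b ^ 2 * (b' ^ 2 * (v ⬝ᵥ v)) := mul_le_mul_of_nonneg_left (h'.2 v) (sq_nonneg b)
    _ = (b * b') ^ 2 * (v ⬝ᵥ v) := by ring

lemma isBdd_diagonal {d : K → ℝ} {b : ℝ} (hb : 0 ≤ b) (hd : ∀ k, |d k| ≤ b) :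
    IsBdd (diagonal d) b := by
  refine ⟨hb, fun v => ?_⟩
  simp only [dotProduct, mulVec_diagonal, Finset.mul_sum]
  refine Finset.sum_le_sum fun k _ => ?_
  have h1 : d k ^ 2 ≤ b ^ 2 := sq_le_sq' (by linarith [abs_le.1 (hd k)]) (abs_le.1 (hd k)).2
  nlinarith [mul_self_nonneg (v k)]

lemma isBdd_of_orth {V : Matrix K K ℝ} (h : Vᵀ * V = 1) : IsBdd V 1 := by
  refine ⟨zero_le_one, fun v => ?_⟩
  have : (V *ᵥ v) ⬝ᵥ (V *ᵥ v) = v ⬝ᵥ v := by
    rw [dotProduct_mulVec, ← mulVec_transpose, mulVec_mulVec, h, one_mulVec]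
  linarith


/-- diagonal entries of a bounded matrix -/
lemma isBdd_diag_entry {M : Matrix K K ℝ} {b : ℝ} (h : IsBdd M b) (k : K) : |M k k| ≤ b := by
  have h1 := h.2 (Pi.single k 1)
  have h2 : (Pi.single k (1 : ℝ)) ⬝ᵥ (Pi.single k (1 : ℝ)) = 1 := by simp
  rw [h2, mul_one, mulVec_single_one] at h1
  have h3 : M k k ^ 2 ≤ (M.col k) ⬝ᵥ (M.col k) := by
    simp only [dotProduct, Matrix.col_apply]
    rw [sq]
    exact Finset.single_le_sum (f := fun i => M i k * M i k) (fun i _ => mul_self_nonneg _)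
      (Finset.mem_univ k)
  exact abs_le_of_sq_le_sq (le_trans h3 h1) h.1

/-- trace against a nonnegative diagonal matrix -/
lemma trace_mul_diag_le {Y : Matrix K K ℝ} {b : ℝ} (h : IsBdd Y b) {d : K → ℝ}
    (hd : ∀ k, 0 ≤ d k) : |trace (Y * diagonal d)| ≤ b * ∑ k, d k := by
  have h1 : trace (Y * diagonal d) = ∑ k, Y k k * d k := by
    simp [trace, mul_diagonal]
  rw [h1, Finset.mul_sum]
  refine le_trans (Finset.abs_sum_le_sum_abs _ _) (Finset.sum_le_sum fun k _ => ?_)
  rw [abs_mul, abs_of_nonneg (hd k)]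
  exact mul_le_mul_of_nonneg_right (isBdd_diag_entry h k) (hd k)


/-- indicator of the super-level set `{k | s < ℓ k}` -/
noncomputable def lev (ℓ : K → ℝ) (s : ℝ) : K → ℝ := fun k => if s < ℓ k then 1 else 0

lemma lev_nonneg (ℓ : K → ℝ) (s : ℝ) (k : K) : 0 ≤ lev ℓ s k := by
  unfold lev; split_ifs <;> norm_num

lemma lev_abs_le (ℓ : K → ℝ) (s : ℝ) (k : K) : |lev ℓ s k| ≤ 1 := by
  unfold lev; split_ifs <;> norm_num

/-- nonnegative combinations of super-level indicators of `ℓ` -/
inductive InCone (ℓ : K → ℝ) : (K → ℝ) → Prop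
  | zero : InCone ℓ (fun _ => 0)
  | add (c s : ℝ) (D : K → ℝ) : 0 ≤ c → InCone ℓ D → InCone ℓ (fun k => c * lev ℓ s k + D k)

/-- layer-cake decomposition of the positive part of `ℓ - t` -/
lemma inCone_shift (ℓ : K → ℝ) :
    ∀ (m : ℕ) (t : ℝ), (Finset.univ.filter fun k => t < ℓ k).card ≤ m →
      InCone ℓ (fun k => max (ℓ k - t) 0) := by
  intro m
  induction m with
  | zero =>
    intro t ht
    have hempty : ∀ k, ¬ t < ℓ k := by
      intro k hk
      have : k ∈ Finset.univ.filter fun k => t < ℓ k := by simp [hk]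
      have h0 := Finset.card_eq_zero.1 (Nat.le_zero.1 ht)
      rw [h0] at this
      simp at this
    have : (fun k => max (ℓ k - t) 0) = fun _ => (0 : ℝ) := by
      funext k
      have := hempty k
      exact max_eq_right (by linarith)
    rw [this]
    exact InCone.zero
  | succ m ih =>
    intro t ht
    by_cases hne : (Finset.univ.filter fun k => t < ℓ k).Nonempty
    · obtain ⟨k0, hk0, hmin⟩ := Finset.exists_min_image _ ℓ hne
      have hk0' : t < ℓ k0 := (Finset.mem_filter.1 hk0).2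
      have hcard : (Finset.univ.filter fun k => ℓ k0 < ℓ k).card ≤ m := by
        have hsub : (Finset.univ.filter fun k => ℓ k0 < ℓ k)
            ⊂ (Finset.univ.filter fun k => t < ℓ k) := by
          rw [Finset.ssubset_iff_of_subset]
          · exact ⟨k0, hk0, by simp⟩
          · intro k hk
            simp only [Finset.mem_filter, Finset.mem_univ, true_and] at hk ⊢
            linarith
        have := Finset.card_lt_card hsub
        omega
      have hrec := ih (ℓ k0) hcard
      have heq : (fun k => max (ℓ k - t) 0)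
          = fun k => (ℓ k0 - t) * lev ℓ t k + max (ℓ k - ℓ k0) 0 := by
        funext k
        unfold lev
        by_cases hk : t < ℓ k
        · have hge : ℓ k0 ≤ ℓ k := hmin k (by simp [hk])
          rw [if_pos hk, max_eq_left (by linarith), max_eq_left (by linarith)]
          ring
        · rw [if_neg hk, max_eq_right (by linarith), max_eq_right (by linarith)]
          ring
      rw [heq]
      exact InCone.add _ _ _ (by linarith) hrec
    · have hempty : ∀ k, ¬ t < ℓ k := by
        intro k hk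
        exact hne ⟨k, by simp [hk]⟩
      have : (fun k => max (ℓ k - t) 0) = fun _ => (0 : ℝ) := by
        funext k
        have := hempty k
        exact max_eq_right (by linarith)
      rw [this]
      exact InCone.zero

lemma inCone_self (ℓ : K → ℝ) (hℓ : ∀ k, 0 ≤ ℓ k) : InCone ℓ ℓ := by
  have h := inCone_shift ℓ (Fintype.card K) 0 (Finset.card_le_univ _)
  have : (fun k => max (ℓ k - 0) 0) = ℓ := by
    funext k
    rw [sub_zero]
    exact max_eq_left (hℓ k)
  rwa [this] at h


/-- a slot: a matrix, a bound for it, and a diagonal -/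
abbrev Slot (K : Type) : Type := Matrix K K ℝ × ℝ × (K → ℝ)

def slotMat (t : Slot K) : Matrix K K ℝ := t.1 * diagonal t.2.2

def Pm (L : List (Slot K)) : Matrix K K ℝ := (L.map slotMat).prod

def Bn (L : List (Slot K)) : ℝ := (L.map fun t => t.2.1).prod

def Wt (L : List (Slot K)) (k : K) : ℝ := (L.map fun t => t.2.2 k).prod

lemma Pm_append (L₁ L₂ : List (Slot K)) : Pm (L₁ ++ L₂) = Pm L₁ * Pm L₂ := by
  simp [Pm, List.map_append, List.prod_append]

lemma Bn_append (L₁ L₂ : List (Slot K)) : Bn (L₁ ++ L₂) = Bn L₁ * Bn L₂ := by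
  simp [Bn, List.map_append, List.prod_append]

lemma Wt_append (L₁ L₂ : List (Slot K)) (k : K) : Wt (L₁ ++ L₂) k = Wt L₁ k * Wt L₂ k := by
  simp [Wt, List.map_append, List.prod_append]

lemma Pm_cons (t : Slot K) (L : List (Slot K)) : Pm (t :: L) = slotMat t * Pm L := by
  simp [Pm]

lemma Bn_cons (t : Slot K) (L : List (Slot K)) : Bn (t :: L) = t.2.1 * Bn L := by
  simp [Bn]

lemma Wt_cons (t : Slot K) (L : List (Slot K)) (k : K) : Wt (t :: L) k = t.2.2 k * Wt L k := by
  simp [Wt]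

lemma Pm_nil : Pm ([] : List (Slot K)) = 1 := by simp [Pm]

lemma Bn_nil : Bn ([] : List (Slot K)) = 1 := by simp [Bn]

lemma Wt_nil (k : K) : Wt ([] : List (Slot K)) k = 1 := by simp [Wt]

lemma Bn_nonneg (L : List (Slot K)) (h : ∀ t ∈ L, IsBdd t.1 t.2.1) : 0 ≤ Bn L := by
  induction L with
  | nil => simp [Bn]
  | cons t L ih =>
    rw [Bn_cons]
    exact mul_nonneg (h t (by simp)).1 (ih fun t' ht' => h t' (by simp [ht']))

lemma isBdd_Pm (L : List (Slot K)) (h : ∀ t ∈ L, IsBdd t.1 t.2.1 ∧ ∀ k, |t.2.2 k| ≤ 1) :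
    IsBdd (Pm L) (Bn L) := by
  induction L with
  | nil => rw [Pm_nil, Bn_nil]; exact isBdd_one
  | cons t L ih =>
    rw [Pm_cons, Bn_cons]
    have ht := h t (by simp)
    have h1 : IsBdd (slotMat t) (t.2.1 * 1) :=
      isBdd_mul ht.1 (isBdd_diagonal zero_le_one ht.2)
    rw [mul_one] at h1
    exact isBdd_mul h1 (ih fun t' ht' => h t' (by simp [ht']))

/-- a slot with a level indicator as diagonal -/
noncomputable def toSlot (ℓ : K → ℝ) (t : Matrix K K ℝ × ℝ × ℝ) : Slot K :=
  (t.1, t.2.1, lev ℓ t.2.2)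

lemma exists_max_split {α : Type} (f : α → ℝ) :
    ∀ l : List α, l ≠ [] → ∃ l₁ a l₂, l = l₁ ++ a :: l₂ ∧ ∀ x ∈ l, f x ≤ f a := by
  intro l
  induction l with
  | nil => intro h; exact absurd rfl h
  | cons a l ih =>
    intro _
    by_cases hl : l = []
    · subst hl
      exact ⟨[], a, [], rfl, by simp⟩
    · obtain ⟨l₁, b, l₂, hsplit, hmax⟩ := ih hl
      by_cases hab : f a ≤ f b
      · refine ⟨a :: l₁, b, l₂, by rw [hsplit]; rfl, ?_⟩
        intro x hx
        rcases List.mem_cons.1 hx with rfl | hx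
        · exact hab
        · exact hmax x hx
      · refine ⟨[], a, l, rfl, ?_⟩
        intro x hx
        rcases List.mem_cons.1 hx with rfl | hx
        · exact le_rfl
        · exact le_trans (hmax x hx) (le_of_lt (not_le.1 hab))

/-- base case: all diagonals are level indicators -/
lemma trace_base (ℓ : K → ℝ) (L : List (Matrix K K ℝ × ℝ × ℝ))
    (h : ∀ t ∈ L, IsBdd t.1 t.2.1) :
    |trace (Pm (L.map (toSlot ℓ)))| ≤ Bn (L.map (toSlot ℓ)) * ∑ k, Wt (L.map (toSlot ℓ)) k := by
  by_cases hL : L = []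
  · subst hL
    simp [Pm_nil, Bn_nil, Wt_nil, trace_one]
  · obtain ⟨L₁, a, L₂, hsplit, hmax⟩ := exists_max_split (fun t : Matrix K K ℝ × ℝ × ℝ => t.2.2) L hL
    have hgood : ∀ (L' : List (Matrix K K ℝ × ℝ × ℝ)), (∀ t ∈ L', t ∈ L) →
        IsBdd (Pm (L'.map (toSlot ℓ))) (Bn (L'.map (toSlot ℓ))) := by
      intro L' hsub
      apply isBdd_Pm
      intro t ht
      obtain ⟨t0, ht0, rfl⟩ := List.mem_map.1 ht
      exact ⟨h t0 (hsub t0 ht0), fun k => lev_abs_le ℓ _ k⟩
    have h1 := hgood L₁ (fun t ht => by rw [hsplit]; simp [ht])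
    have h2 := hgood L₂ (fun t ht => by rw [hsplit]; simp [ht])
    have ha : IsBdd a.1 a.2.1 := h a (by rw [hsplit]; simp)
    have hP : Pm (L.map (toSlot ℓ))
        = Pm (L₁.map (toSlot ℓ)) * (a.1 * diagonal (lev ℓ a.2.2)) * Pm (L₂.map (toSlot ℓ)) := by
      rw [hsplit, List.map_append, List.map_cons, Pm_append, Pm_cons, mul_assoc]
      rfl
    have hB : Bn (L.map (toSlot ℓ))
        = Bn (L₂.map (toSlot ℓ)) * Bn (L₁.map (toSlot ℓ)) * a.2.1 := by
      rw [hsplit, List.map_append, List.map_cons, Bn_append, Bn_cons]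
      show _ * (a.2.1 * _) = _
      ring
    have hW : ∀ k, Wt (L.map (toSlot ℓ)) k = lev ℓ a.2.2 k := by
      intro k
      unfold Wt
      rw [List.map_map]
      by_cases hk : a.2.2 < ℓ k
      · have : lev ℓ a.2.2 k = 1 := by simp [lev, hk]
        rw [this]
        apply List.prod_eq_one
        intro x hx
        obtain ⟨t, ht, rfl⟩ := List.mem_map.1 hx
        have := hmax t ht
        simp only [Function.comp, toSlot, lev]
        rw [if_pos (lt_of_le_of_lt this hk)]
      · have : lev ℓ a.2.2 k = 0 := by simp [lev, hk]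
        rw [this]
        apply List.prod_eq_zero
        apply List.mem_map.2
        refine ⟨a, by rw [hsplit]; simp, ?_⟩
        simp only [Function.comp, toSlot, lev]
        rw [if_neg hk]
    have htr : trace (Pm (L.map (toSlot ℓ)))
        = trace ((Pm (L₂.map (toSlot ℓ)) * Pm (L₁.map (toSlot ℓ)) * a.1)
            * diagonal (lev ℓ a.2.2)) := by
      rw [hP, trace_mul_comm]
      simp only [mul_assoc]
    rw [htr, hB, Finset.sum_congr rfl (fun k _ => hW k)]
    exact trace_mul_diag_le (isBdd_mul (isBdd_mul h2 h1) ha) (fun k => lev_nonneg ℓ _ k)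


lemma slotMat_zero (M : Matrix K K ℝ) (b : ℝ) : slotMat ((M, b, fun _ => 0) : Slot K) = 0 := by
  unfold slotMat
  have : diagonal (fun _ : K => (0 : ℝ)) = 0 := by
    ext i j; simp [diagonal]
  simp [this]

lemma slotMat_add (ℓ : K → ℝ) (M : Matrix K K ℝ) (b c s : ℝ) (D : K → ℝ) :
    slotMat ((M, b, fun k => c * lev ℓ s k + D k) : Slot K)
      = c • slotMat ((M, b, lev ℓ s) : Slot K) + slotMat ((M, b, D) : Slot K) := by
  unfold slotMat
  have : diagonal (fun k => c * lev ℓ s k + D k) = c • diagonal (lev ℓ s) + diagonal D := by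
    ext i j
    by_cases hij : i = j
    · subst hij; simp
    · simp [diagonal, hij]
  simp only [this, mul_add, Matrix.mul_smul]

/-- trace inequality for slot products, general diagonals in the cone -/
theorem trace_gen (ℓ : K → ℝ) :
    ∀ (post : List (Slot K)) (pre : List (Matrix K K ℝ × ℝ × ℝ)),
      (∀ t ∈ pre, IsBdd t.1 t.2.1) → (∀ t ∈ post, IsBdd t.1 t.2.1 ∧ InCone ℓ t.2.2) →
      |trace (Pm (pre.map (toSlot ℓ) ++ post))|
        ≤ Bn (pre.map (toSlot ℓ) ++ post) * ∑ k, Wt (pre.map (toSlot ℓ) ++ post) k := by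
  intro post
  induction post with
  | nil =>
    intro pre hpre _
    rw [List.append_nil]
    exact trace_base ℓ pre hpre
  | cons t rest ih =>
    intro pre hpre hpost
    obtain ⟨M, b, D⟩ := t
    have ht := hpost (M, b, D) (by simp)
    have hrest : ∀ t ∈ rest, IsBdd t.1 t.2.1 ∧ InCone ℓ t.2.2 :=
      fun t' ht' => hpost t' (by simp [ht'])
    have hMb : IsBdd M b := ht.1
    have hD : InCone ℓ D := ht.2
    have hBpre : 0 ≤ Bn (pre.map (toSlot ℓ)) := by
      apply Bn_nonneg
      intro t ht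
      obtain ⟨t0, ht0, rfl⟩ := List.mem_map.1 ht
      exact hpre t0 ht0
    have hBrest : 0 ≤ Bn rest := Bn_nonneg rest fun t ht => (hrest t ht).1
    have key : ∀ D : K → ℝ, InCone ℓ D →
        |trace (Pm (pre.map (toSlot ℓ) ++ ((M, b, D) : Slot K) :: rest))|
          ≤ Bn (pre.map (toSlot ℓ) ++ ((M, b, D) : Slot K) :: rest)
            * ∑ k, Wt (pre.map (toSlot ℓ) ++ ((M, b, D) : Slot K) :: rest) k := by
      intro D hD
      induction hD with
      | zero =>
        rw [Pm_append, Pm_cons, slotMat_zero]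
        simp only [zero_mul, mul_zero, trace_zero, abs_zero]
        have : ∀ k, Wt (pre.map (toSlot ℓ) ++ ((M, b, fun _ => 0) : Slot K) :: rest) k = 0 := by
          intro k
          rw [Wt_append, Wt_cons]
          simp
        rw [Finset.sum_congr rfl (fun k _ => this k)]
        simp
      | add c s D hc _ ihD =>
        have h1 := ih (pre ++ [(M, b, s)]) (by
          intro t ht
          rcases List.mem_append.1 ht with h | h
          · exact hpre t h
          · rw [List.mem_singleton] at h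
            subst h
            exact hMb) hrest
        have e1 : (pre ++ [(M, b, s)]).map (toSlot ℓ) ++ rest
            = pre.map (toSlot ℓ) ++ ((M, b, lev ℓ s) : Slot K) :: rest := by
          simp [toSlot]
        rw [e1] at h1
        have hP : Pm (pre.map (toSlot ℓ) ++ ((M, b, fun k => c * lev ℓ s k + D k) : Slot K) :: rest)
            = c • Pm (pre.map (toSlot ℓ) ++ ((M, b, lev ℓ s) : Slot K) :: rest)
              + Pm (pre.map (toSlot ℓ) ++ ((M, b, D) : Slot K) :: rest) := by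
          simp only [Pm_append, Pm_cons, slotMat_add, add_mul, mul_add, Matrix.smul_mul,
            Matrix.mul_smul]
        have hB : ∀ D' : K → ℝ, Bn (pre.map (toSlot ℓ) ++ ((M, b, D') : Slot K) :: rest)
            = Bn (pre.map (toSlot ℓ)) * b * Bn rest := by
          intro D'
          rw [Bn_append, Bn_cons, mul_assoc]
        have hW : ∀ k, Wt (pre.map (toSlot ℓ) ++ ((M, b, fun k => c * lev ℓ s k + D k) : Slot K) :: rest) k
            = c * Wt (pre.map (toSlot ℓ) ++ ((M, b, lev ℓ s) : Slot K) :: rest) k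
              + Wt (pre.map (toSlot ℓ) ++ ((M, b, D) : Slot K) :: rest) k := by
          intro k
          simp only [Wt_append, Wt_cons]
          ring
        rw [hP, trace_add, trace_smul, Finset.sum_congr rfl (fun k _ => hW k),
          Finset.sum_add_distrib, ← Finset.mul_sum, hB]
        rw [hB] at h1 ihD
        have hBB : 0 ≤ Bn (pre.map (toSlot ℓ)) * b * Bn rest :=
          mul_nonneg (mul_nonneg hBpre hMb.1) hBrest
        calc |c • trace (Pm (pre.map (toSlot ℓ) ++ ((M, b, lev ℓ s) : Slot K) :: rest))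
              + trace (Pm (pre.map (toSlot ℓ) ++ ((M, b, D) : Slot K) :: rest))|
            ≤ |c • trace (Pm (pre.map (toSlot ℓ) ++ ((M, b, lev ℓ s) : Slot K) :: rest))|
              + |trace (Pm (pre.map (toSlot ℓ) ++ ((M, b, D) : Slot K) :: rest))| := abs_add_le _ _
          _ = c * |trace (Pm (pre.map (toSlot ℓ) ++ ((M, b, lev ℓ s) : Slot K) :: rest))|
              + |trace (Pm (pre.map (toSlot ℓ) ++ ((M, b, D) : Slot K) :: rest))| := by
            rw [smul_eq_mul, abs_mul, abs_of_nonneg hc]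
          _ ≤ c * (Bn (pre.map (toSlot ℓ)) * b * Bn rest
                * ∑ k, Wt (pre.map (toSlot ℓ) ++ ((M, b, lev ℓ s) : Slot K) :: rest) k)
              + Bn (pre.map (toSlot ℓ)) * b * Bn rest
                * ∑ k, Wt (pre.map (toSlot ℓ) ++ ((M, b, D) : Slot K) :: rest) k :=
            add_le_add (mul_le_mul_of_nonneg_left h1 hc) ihD
          _ = _ := by ring
    exact key D hD

/-- trace Hölder inequality: `|tr(M_0 L M_1 L ⋯ M_{n-1} L)| ≤ (∏ b_i) ∑_k ℓ_k^n` -/
theorem trace_holder (ℓ : K → ℝ) (hℓ : ∀ k, 0 ≤ ℓ k) {n : ℕ} (M : Fin n → Matrix K K ℝ)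
    (b : Fin n → ℝ) (hM : ∀ i, IsBdd (M i) (b i)) :
    |trace ((List.ofFn fun i => M i * diagonal ℓ).prod)| ≤ (∏ i, b i) * ∑ k, ℓ k ^ n := by
  have h := trace_gen ℓ (List.ofFn fun i => ((M i, b i, ℓ) : Slot K)) [] (by simp) (by
    intro t ht
    obtain ⟨i, rfl⟩ := (List.mem_ofFn' _ _).1 ht
    exact ⟨hM i, inCone_self ℓ hℓ⟩)
  simp only [List.map_nil, List.nil_append] at h
  have e1 : Pm (List.ofFn fun i => ((M i, b i, ℓ) : Slot K))
      = (List.ofFn fun i => M i * diagonal ℓ).prod := by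
    unfold Pm
    rw [List.map_ofFn]
    rfl
  have e2 : Bn (List.ofFn fun i => ((M i, b i, ℓ) : Slot K)) = ∏ i, b i := by
    unfold Bn
    rw [List.map_ofFn, List.prod_ofFn]
    rfl
  have e3 : ∀ k, Wt (List.ofFn fun i => ((M i, b i, ℓ) : Slot K)) k = ℓ k ^ n := by
    intro k
    unfold Wt
    rw [List.map_ofFn, List.prod_ofFn]
    simp
  rw [e1, e2, Finset.sum_congr rfl (fun k _ => e3 k)] at h
  exact h

end Vale.Agent.Lib.P050.Loc
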