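import Vale.Agent.Lib.P050.Join

/-!
The remaining closure steps (disjoint copies, tensor products, isomorphisms, the
one-vertex graph) and the main theorem for `Buildable` hosts.
-/

namespace Vale.Agent.Lib.P050

open Classical

variable {V W : Type}

/-- `ψ` is constant along the edges in `F` -/
def ConstOn {α : Type} (F : Finset (Sym2 V)) (ψ : V → α) : Prop :=
  ∀ a b, s(a, b) ∈ F → ψ a = ψ b

lemma const_count [Fintype V] (k : ℕ) [NeZero k] (F : Finset (Sym2 V)) :
    k ^ Fintype.card V
      ≤ k ^ F.card * (Finset.univ.filter fun ψ : V → Fin k => ConstOn F ψ).card := by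
  induction F using Finset.induction_on with
  | empty =>
    have : (Finset.univ.filter fun ψ : V → Fin k => ConstOn (∅ : Finset (Sym2 V)) ψ)
        = Finset.univ := by
      apply Finset.filter_true_of_mem
      intro c _ a b h
      simp at h
    rw [this]
    simp
  | insert e F he ih =>
    rw [Finset.card_insert_of_notMem he]
    induction e using Sym2.ind with
    | _ u v =>
    set S := Finset.univ.filter fun ψ : V → Fin k => ConstOn F ψ with hS
    set T := Finset.univ.filter fun ψ : V → Fin k => ConstOn (insert s(u, v) F) ψ with hT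
    have hmemT : ∀ ψ : V → Fin k, ψ ∈ T ↔ (ψ ∈ S ∧ ψ u = ψ v) := by
      intro ψ
      simp only [hS, hT, Finset.mem_filter, Finset.mem_univ, true_and]
      constructor
      · intro h
        exact ⟨fun a b hab => h a b (Finset.mem_insert_of_mem hab),
          h u v (Finset.mem_insert_self _ _)⟩
      · rintro ⟨h1, h2⟩ a b hab
        rw [Finset.mem_insert] at hab
        rcases hab with hab | hab
        · rw [Sym2.eq_iff] at hab
          rcases hab with ⟨rfl, rfl⟩ | ⟨rfl, rfl⟩
          · exact h2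
          · exact h2.symm
        · exact h1 a b hab
    have hST : S.card ≤ T.card * k := by
      have h1 := Finset.card_le_mul_card_image (f := fun ψ : V → Fin k => ψ u - ψ v) S T.card ?_
      · calc S.card ≤ T.card * (S.image fun ψ : V → Fin k => ψ u - ψ v).card := h1
          _ ≤ T.card * k := by
            apply Nat.mul_le_mul_left
            have := Finset.card_le_univ (S.image fun ψ : V → Fin k => ψ u - ψ v)
            simpa using this
      · intro d hd
        obtain ⟨ψ0, hψ0S, hψ0⟩ := Finset.mem_image.mp hd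
        apply Finset.card_le_card_of_injOn (fun ψ => ψ - ψ0)
        · intro ψ hψ
          rw [Finset.mem_coe, Finset.mem_filter] at hψ
          rw [Finset.mem_coe, hmemT]
          have hψS : ConstOn F ψ := by
            have := hψ.1
            simp only [hS, Finset.mem_filter, Finset.mem_univ, true_and] at this
            exact this
          have hψ0S' : ConstOn F ψ0 := by
            simp only [hS, Finset.mem_filter, Finset.mem_univ, true_and] at hψ0S
            exact hψ0S
          refine ⟨?_, ?_⟩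
          · simp only [hS, Finset.mem_filter, Finset.mem_univ, true_and]
            intro a b hab
            simp only [Pi.sub_apply]
            rw [hψS a b hab, hψ0S' a b hab]
          · simp only [Pi.sub_apply]
            have e1 : ψ u - ψ v = ψ0 u - ψ0 v := hψ.2.trans hψ0.symm
            have e2 : ψ u - ψ0 u - (ψ v - ψ0 v) = (ψ u - ψ v) - (ψ0 u - ψ0 v) := by abel
            exact sub_eq_zero.mp (by rw [e2, e1, sub_self])
        · intro ψ1 _ ψ2 _ h
          exact sub_left_injective h
    calc k ^ Fintype.card V ≤ k ^ F.card * S.card := ih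
      _ ≤ k ^ F.card * (T.card * k) := Nat.mul_le_mul_left _ hST
      _ = k ^ (F.card + 1) * T.card := by ring

/-- homomorphisms into `k` disjoint copies of `G` -/
def copiesEquiv (k : ℕ) (H : SimpleGraph V) (G : SimpleGraph W) :
    HomFun H (copies k G)
      ≃ {ψ : V → Fin k // ∀ a b, H.Adj a b → ψ a = ψ b} × HomFun H G where
  toFun f := ⟨⟨fun v => (f.1 v).1, fun a b h => (f.2 a b h).1⟩,
    ⟨fun v => (f.1 v).2, fun a b h => (f.2 a b h).2⟩⟩
  invFun g := ⟨fun v => (g.1.1 v, g.2.1 v), fun a b h => ⟨g.1.2 a b h, g.2.2 a b h⟩⟩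
  left_inv := fun _ => rfl
  right_inv := fun _ => rfl

lemma card_adjPairs_copies [Finite W] (G : SimpleGraph W) (k : ℕ) :
    Nat.card (AdjPairs (copies k G)) = k * Nat.card (AdjPairs G) := by
  haveI := Fintype.ofFinite W
  rw [card_adjPairs_sum, card_adjPairs_sum]
  simp only [Fintype.sum_prod_type]
  have key : ∀ (i : Fin k) (x : W),
      (∑ j : Fin k, ∑ y : W, if (copies k G).Adj (i, x) (j, y) then 1 else 0)
        = ∑ y : W, if G.Adj x y then 1 else 0 := by
    intro i x
    have h1 : ∀ j : Fin k, (∑ y : W, if (copies k G).Adj (i, x) (j, y) then 1 else 0)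
        = if j = i then (∑ y : W, if G.Adj x y then 1 else 0) else 0 := by
      intro j
      by_cases hji : j = i
      · subst hji
        simp [copies]
      · have : ∀ y : W, ¬ (copies k G).Adj (i, x) (j, y) := fun y h => hji h.1.symm
        simp [this, hji]
    simp_rw [h1]
    simp
  simp_rw [key]
  rw [Finset.sum_const, Finset.card_univ, Fintype.card_fin]
  simp only [smul_eq_mul]

lemma dens_copies [Finite W] [Nonempty W] (G : SimpleGraph W) (k : ℕ) (hk : 1 ≤ k) :
    dens (copies k G) = dens G / k := by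
  unfold dens
  rw [card_adjPairs_copies, Nat.card_prod, Nat.card_fin]
  have hn : (0 : ℝ) < (Nat.card W : ℝ) := by exact_mod_cast Nat.card_pos
  have hk' : (0 : ℝ) < (k : ℝ) := by exact_mod_cast hk
  push_cast
  field_simp

theorem sid_copies [Finite W] [Nonempty W] (G : SimpleGraph W) (hG : Sid G)
    (k : ℕ) (hk : 1 ≤ k) : Sid (copies k G) := by
  intro V _ H hH
  haveI := Fintype.ofFinite V
  haveI : NeZero k := ⟨by omega⟩
  rw [Nat.card_congr (copiesEquiv k H G), Nat.card_prod]
  have hc := const_count (V := V) k (edgeFin H)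
  have hN : Nat.card {ψ : V → Fin k // ∀ a b, H.Adj a b → ψ a = ψ b}
      = (Finset.univ.filter fun ψ : V → Fin k => ConstOn (edgeFin H) ψ).card := by
    apply Nat.subtype_card
    intro ψ
    rw [Finset.mem_filter]
    constructor
    · intro h a b hab
      exact h.2 a b ((mem_edgeFin H a b).mpr hab)
    · intro h
      exact ⟨Finset.mem_univ _, fun a b hab => h a b ((mem_edgeFin H a b).mp hab)⟩
  rw [← hN, card_edgeFin, ← Nat.card_eq_fintype_card] at hc
  have hc' : (k : ℝ) ^ Nat.card V
      ≤ (k : ℝ) ^ Nat.card H.edgeSet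
        * (Nat.card {ψ : V → Fin k // ∀ a b, H.Adj a b → ψ a = ψ b} : ℝ) := by
    exact_mod_cast hc
  have h0 := hG V H hH
  have hn : (0 : ℝ) < (Nat.card W : ℝ) := by exact_mod_cast Nat.card_pos
  have hk' : (0 : ℝ) < (k : ℝ) := by exact_mod_cast hk
  rw [dens_copies G k hk, Nat.card_prod, Nat.card_fin]
  push_cast
  have hd := dens_nonneg G
  calc ((k : ℝ) * (Nat.card W : ℝ)) ^ Nat.card V * (dens G / k) ^ Nat.card H.edgeSet
      = ((k : ℝ) ^ Nat.card V / (k : ℝ) ^ Nat.card H.edgeSet)
          * ((Nat.card W : ℝ) ^ Nat.card V * dens G ^ Nat.card H.edgeSet) := by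
        rw [mul_pow, div_pow]; ring
    _ ≤ (Nat.card {ψ : V → Fin k // ∀ a b, H.Adj a b → ψ a = ψ b} : ℝ)
          * (Nat.card (HomFun H G) : ℝ) := by
        apply mul_le_mul _ h0 (by positivity) (by positivity)
        rw [div_le_iff₀ (by positivity)]
        linarith [hc']

/-- homomorphisms into a tensor product -/
def tensorEquiv {W₁ W₂ : Type} (H : SimpleGraph V) (G₁ : SimpleGraph W₁) (G₂ : SimpleGraph W₂) :
    HomFun H (tensor G₁ G₂) ≃ HomFun H G₁ × HomFun H G₂ where
  toFun f := ⟨⟨fun v => (f.1 v).1, fun a b h => (f.2 a b h).1⟩,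
    ⟨fun v => (f.1 v).2, fun a b h => (f.2 a b h).2⟩⟩
  invFun g := ⟨fun v => (g.1.1 v, g.2.1 v), fun a b h => ⟨g.1.2 a b h, g.2.2 a b h⟩⟩
  left_inv := fun _ => rfl
  right_inv := fun _ => rfl

/-- adjacent pairs of a tensor product -/
def tensorPairsEquiv {W₁ W₂ : Type} (G₁ : SimpleGraph W₁) (G₂ : SimpleGraph W₂) :
    AdjPairs (tensor G₁ G₂) ≃ AdjPairs G₁ × AdjPairs G₂ where
  toFun p := ⟨⟨(p.1.1.1, p.1.2.1), p.2.1⟩, ⟨(p.1.1.2, p.1.2.2), p.2.2⟩⟩
  invFun g := ⟨((g.1.1.1, g.2.1.1), (g.1.1.2, g.2.1.2)), ⟨g.1.2, g.2.2⟩⟩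
  left_inv := fun _ => rfl
  right_inv := fun _ => rfl

lemma dens_tensor {W₁ W₂ : Type} (G₁ : SimpleGraph W₁) (G₂ : SimpleGraph W₂) :
    dens (tensor G₁ G₂) = dens G₁ * dens G₂ := by
  unfold dens
  rw [Nat.card_congr (tensorPairsEquiv G₁ G₂), Nat.card_prod, Nat.card_prod]
  push_cast
  rw [mul_pow, mul_div_mul_comm]

theorem sid_tensor {W₁ W₂ : Type} (G₁ : SimpleGraph W₁) (G₂ : SimpleGraph W₂)
    (h₁ : Sid G₁) (h₂ : Sid G₂) : Sid (tensor G₁ G₂) := by
  intro V _ H hH
  rw [Nat.card_congr (tensorEquiv H G₁ G₂), Nat.card_prod, Nat.card_prod, dens_tensor]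
  push_cast
  have e1 := h₁ V H hH
  have e2 := h₂ V H hH
  have d1 := dens_nonneg G₁
  have d2 := dens_nonneg G₂
  calc ((Nat.card W₁ : ℝ) * (Nat.card W₂ : ℝ)) ^ Nat.card V
        * (dens G₁ * dens G₂) ^ Nat.card H.edgeSet
      = ((Nat.card W₁ : ℝ) ^ Nat.card V * dens G₁ ^ Nat.card H.edgeSet)
          * ((Nat.card W₂ : ℝ) ^ Nat.card V * dens G₂ ^ Nat.card H.edgeSet) := by
        rw [mul_pow, mul_pow]; ring
    _ ≤ (Nat.card (HomFun H G₁) : ℝ) * (Nat.card (HomFun H G₂) : ℝ) :=
        mul_le_mul e1 e2 (by positivity) (by positivity)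

/-- transport of homomorphisms along an isomorphism of hosts -/
def isoHomEquiv {W' : Type} (H : SimpleGraph V) {G : SimpleGraph W} {G' : SimpleGraph W'}
    (e : G ≃g G') : HomFun H G ≃ HomFun H G' where
  toFun f := ⟨fun v => e (f.1 v), fun a b h => e.map_adj_iff.mpr (f.2 a b h)⟩
  invFun g := ⟨fun v => e.symm (g.1 v), fun a b h => e.symm.map_adj_iff.mpr (g.2 a b h)⟩
  left_inv := fun f => Subtype.ext (funext fun v => e.symm_apply_apply (f.1 v))
  right_inv := fun g => Subtype.ext (funext fun v => e.apply_symm_apply (g.1 v))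

/-- transport of adjacent pairs along an isomorphism -/
def isoPairsEquiv {W' : Type} {G : SimpleGraph W} {G' : SimpleGraph W'}
    (e : G ≃g G') : AdjPairs G ≃ AdjPairs G' where
  toFun p := ⟨(e p.1.1, e p.1.2), e.map_adj_iff.mpr p.2⟩
  invFun p := ⟨(e.symm p.1.1, e.symm p.1.2), e.symm.map_adj_iff.mpr p.2⟩
  left_inv := fun _ => Subtype.ext (Prod.ext (e.symm_apply_apply _) (e.symm_apply_apply _))
  right_inv := fun _ => Subtype.ext (Prod.ext (e.apply_symm_apply _) (e.apply_symm_apply _))

theorem sid_iso {W' : Type} {G : SimpleGraph W} {G' : SimpleGraph W'} (e : G ≃g G')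
    (h : Sid G) : Sid G' := by
  intro V _ H hH
  have h0 := h V H hH
  have hW : Nat.card W' = Nat.card W := (Nat.card_congr e.toEquiv).symm
  have hd : dens G' = dens G := by
    unfold dens
    rw [hW, Nat.card_congr (isoPairsEquiv e)]
  rw [hd, hW, ← Nat.card_congr (isoHomEquiv H e)]
  exact h0

theorem sid_point : Sid (⊥ : SimpleGraph Unit) := by
  intro V _ H hH
  have hd : dens (⊥ : SimpleGraph Unit) = 0 := by
    unfold dens
    have : IsEmpty (AdjPairs (⊥ : SimpleGraph Unit)) := ⟨fun p => p.2⟩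
    simp [Nat.card_of_isEmpty]
  rw [hd]
  rcases Nat.eq_zero_or_pos (Nat.card H.edgeSet) with he | he
  · rw [he]
    have hne : IsEmpty H.edgeSet := by
      rcases Nat.card_eq_zero.mp he with h | h
      · exact h
      · exact absurd (Set.toFinite H.edgeSet).to_subtype (by simpa using h)
    have : Nonempty (HomFun H (⊥ : SimpleGraph Unit)) :=
      ⟨⟨fun _ => (), fun a b hab => (hne.false ⟨s(a, b), hab⟩).elim⟩⟩
    have hpos : 0 < Nat.card (HomFun H (⊥ : SimpleGraph Unit)) := Nat.card_pos
    have : (1 : ℝ) ≤ (Nat.card (HomFun H (⊥ : SimpleGraph Unit)) : ℝ) := by exact_mod_cast hpos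
    simpa using this
  · rw [zero_pow (by omega)]
    simp

/-- every buildable host is finite, nonempty and has the Sidorenko property -/
theorem buildable_sid {W : Type} (G : SimpleGraph W) (hG : Buildable G) :
    Finite W ∧ Nonempty W ∧ Sid G := by
  induction hG with
  | point => exact ⟨inferInstance, inferInstance, sid_point⟩
  | join k hk G _ ih =>
    obtain ⟨hf, hn, hs⟩ := ih
    haveI : NeZero k := ⟨by omega⟩
    exact ⟨inferInstance, inferInstance, sid_selfJoin G hs k hk⟩
  | copies k hk G _ ih =>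
    obtain ⟨hf, hn, hs⟩ := ih
    haveI : NeZero k := ⟨by omega⟩
    exact ⟨inferInstance, inferInstance, sid_copies G hs k hk⟩
  | tensor G₁ G₂ _ _ ih₁ ih₂ =>
    obtain ⟨hf₁, hn₁, hs₁⟩ := ih₁
    obtain ⟨hf₂, hn₂, hs₂⟩ := ih₂
    exact ⟨inferInstance, inferInstance, sid_tensor G₁ G₂ hs₁ hs₂⟩
  | iso G G' _ he ih =>
    obtain ⟨hf, hn, hs⟩ := ih
    obtain ⟨e⟩ := he
    exact ⟨Finite.of_equiv _ e.toEquiv, ⟨e hn.some⟩, sid_iso e hs⟩

/-- the Sidorenko inequality in the normalised form `t(H,G) ≥ p(G)^{e(H)}` -/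
theorem sidorenko_of_buildable {W : Type} (G : SimpleGraph W) (hG : Buildable G)
    {V : Type} [Finite V] (H : SimpleGraph V) (hH : H.Colorable 2) :
    (2 * (Nat.card G.edgeSet : ℝ) / (Nat.card W : ℝ) ^ 2) ^ Nat.card H.edgeSet
      ≤ (Nat.card (H →g G) : ℝ) / (Nat.card W : ℝ) ^ Nat.card V := by
  obtain ⟨hf, hn, hs⟩ := buildable_sid G hG
  have h := hs V H hH
  rw [dens_eq, ← card_hom] at h
  have hpos : (0 : ℝ) < (Nat.card W : ℝ) := by exact_mod_cast Nat.card_pos
  rw [le_div_iff₀ (by positivity)]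
  linarith [h]

end Vale.Agent.Lib.P050
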