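import Vale.Agent.Lib.P050.Kempe

/-!
The antiferromagnetic Potts lower bound on bipartite edge sets, obtained from the
colouring inequality by expanding over edge subsets.
-/

namespace Vale.Agent.Lib.P050

open Classical

variable {V : Type}

/-- number of edges of `E` on which `ψ` is constant -/
noncomputable def mono {α : Type} (E : Finset (Sym2 V)) (ψ : V → α) : ℕ :=
  (E.filter fun e => (Sym2.map ψ e).IsDiag).card

lemma proper_iff_forall {α : Type} (F : Finset (Sym2 V)) (ψ : V → α) :
    Proper F ψ ↔ ∀ e ∈ F, ¬ (Sym2.map ψ e).IsDiag := by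
  constructor
  · intro h e he
    induction e using Sym2.ind with
    | _ a b =>
      rw [Sym2.map_mk, Sym2.mk_isDiag_iff]
      exact h a b he
  · intro h a b hab
    have := h _ hab
    rw [Sym2.map_mk, Sym2.mk_isDiag_iff] at this
    exact this

lemma pow_mono_eq {α : Type} (E : Finset (Sym2 V)) (ψ : V → α) (p : ℝ) :
    p ^ mono E ψ = ∑ t ∈ E.powerset,
      (if Proper t ψ then (1 - p) ^ t.card else 0) * p ^ (E.card - t.card) := by
  have h1 : p ^ mono E ψ
      = ∏ e ∈ E, ((if ¬ (Sym2.map ψ e).IsDiag then (1 - p) else 0) + p) := by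
    have : ∀ e ∈ E, ((if ¬ (Sym2.map ψ e).IsDiag then (1 - p) else 0) + p)
        = (if (Sym2.map ψ e).IsDiag then p else 1) := by
      intro e _
      by_cases h : (Sym2.map ψ e).IsDiag <;> simp [h]
    rw [Finset.prod_congr rfl this, Finset.prod_ite]
    simp [mono]
  rw [h1, Finset.prod_add]
  apply Finset.sum_congr rfl
  intro t ht
  rw [Finset.mem_powerset] at ht
  rw [Finset.prod_ite_zero, Finset.prod_const, Finset.prod_const, Finset.card_sdiff_of_subset ht]
  congr 1
  by_cases h : Proper t ψ
  · rw [if_pos h, if_pos ((proper_iff_forall t ψ).mp h)]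
  · rw [if_neg h, if_neg (fun h' => h ((proper_iff_forall t ψ).mpr h'))]

theorem potts_bound [Fintype V] (κ : V → Bool) (E : Finset (Sym2 V)) (hκ : Proper E κ)
    (k : ℕ) (hk : 1 ≤ k) (p : ℝ) (hp0 : 0 ≤ p) (hp1 : p ≤ 1) :
    (k : ℝ) ^ Fintype.card V * ((k : ℝ) - 1 + p) ^ E.card
      ≤ (k : ℝ) ^ E.card * ∑ ψ : V → Fin k, p ^ mono E ψ := by
  have hsum : ∑ ψ : V → Fin k, p ^ mono E ψ
      = ∑ t ∈ E.powerset, ((Finset.univ.filter (fun c : V → Fin k => Proper t c)).card : ℝ)
          * ((1 - p) ^ t.card * p ^ (E.card - t.card)) := by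
    simp_rw [pow_mono_eq]
    rw [Finset.sum_comm]
    apply Finset.sum_congr rfl
    intro t _
    rw [← Finset.sum_mul, ← Finset.sum_filter, Finset.sum_const, nsmul_eq_mul]
    ring
  rw [hsum, Finset.mul_sum]
  have hk1 : ((k - 1 : ℕ) : ℝ) = (k : ℝ) - 1 := by
    rw [Nat.cast_sub hk]; simp
  have hk0 : (0 : ℝ) ≤ (k : ℝ) - 1 := by
    have : (1 : ℝ) ≤ (k : ℝ) := by exact_mod_cast hk
    linarith
  calc (k : ℝ) ^ Fintype.card V * ((k : ℝ) - 1 + p) ^ E.card
      = (k : ℝ) ^ Fintype.card V * ((((k : ℝ) - 1) * (1 - p)) + p * k) ^ E.card := by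
        congr 2; ring
    _ = (k : ℝ) ^ Fintype.card V * ∑ t ∈ E.powerset,
          (((k : ℝ) - 1) * (1 - p)) ^ t.card * (p * k) ^ (E.card - t.card) := by
        rw [Finset.sum_pow_mul_eq_add_pow]
    _ = ∑ t ∈ E.powerset, (k : ℝ) ^ Fintype.card V *
          ((((k : ℝ) - 1) * (1 - p)) ^ t.card * (p * k) ^ (E.card - t.card)) := by
        rw [Finset.mul_sum]
    _ ≤ ∑ t ∈ E.powerset, (k : ℝ) ^ E.card *
          (((Finset.univ.filter (fun c : V → Fin k => Proper t c)).card : ℝ)
            * ((1 - p) ^ t.card * p ^ (E.card - t.card))) := by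
        apply Finset.sum_le_sum
        intro t ht
        rw [Finset.mem_powerset] at ht
        have hκt : Proper t κ := fun a b h => hκ a b (ht h)
        have hCL := proper_count (q := k) κ t hκt
        have hCL' : ((k : ℝ) - 1) ^ t.card * (k : ℝ) ^ Fintype.card V
            ≤ (k : ℝ) ^ t.card
              * ((Finset.univ.filter (fun c : V → Fin k => Proper t c)).card : ℝ) := by
          rw [← hk1]
          exact_mod_cast hCL
        have hcard : E.card = t.card + (E.card - t.card) := by
          have := Finset.card_le_card ht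
          omega
        have hnn : (0 : ℝ) ≤ (1 - p) ^ t.card * (p ^ (E.card - t.card)
            * (k : ℝ) ^ (E.card - t.card)) := by
          have : (0 : ℝ) ≤ 1 - p := by linarith
          positivity
        calc (k : ℝ) ^ Fintype.card V *
              ((((k : ℝ) - 1) * (1 - p)) ^ t.card * (p * k) ^ (E.card - t.card))
            = (((k : ℝ) - 1) ^ t.card * (k : ℝ) ^ Fintype.card V)
                * ((1 - p) ^ t.card * (p ^ (E.card - t.card)
                  * (k : ℝ) ^ (E.card - t.card))) := by
              rw [mul_pow, mul_pow]; ring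
          _ ≤ ((k : ℝ) ^ t.card
                * ((Finset.univ.filter (fun c : V → Fin k => Proper t c)).card : ℝ))
                * ((1 - p) ^ t.card * (p ^ (E.card - t.card)
                  * (k : ℝ) ^ (E.card - t.card))) :=
              mul_le_mul_of_nonneg_right hCL' hnn
          _ = (k : ℝ) ^ E.card *
                (((Finset.univ.filter (fun c : V → Fin k => Proper t c)).card : ℝ)
                  * ((1 - p) ^ t.card * p ^ (E.card - t.card))) := by
              conv_rhs => rw [hcard, pow_add]
              have : t.card + (E.card - t.card) - t.card = E.card - t.card := by omega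
              rw [this]
              ring

end Vale.Agent.Lib.P050
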